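import Vale.Agent.P251.Q.Euler

/-!
# P241, part EUL / BRIDGE: the complement of a bundle and its Euler class

`V` a bundle over `Z` with fibres in `ℂ^ι`, `V.compl` its complement.

* `incTriv V : V.tot ⟶ Z ⊗ ℂ^ι`, `(z, w) ↦ (z, w)`;
* `map_incTriv` : it pulls `u × lin` back to `Φ_V (e(V.compl) u)`;
* `kap V : V.tot ⟶ ℂ^ι` for compact `Z`, `(z, w) ↦ w`;
* `map_kap` : it pulls the class `lin` back to the Thom class of `V` times the Euler class of
  `V.compl`;
* `map_kap_compl` : the class of `W.compl.tot ⟶ ℂ^ι` is the Thom class of `W.compl` times the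
  Euler class of `W`.
-/

set_option linter.style.haveILetI false
set_option linter.unusedSectionVars false

open CategoryTheory MonoidalCategory Matrix Topology

universe v

noncomputable section

namespace Vale.Agent.P241.EUL

open Vale.Agent.P251.G Vale.Agent.P251.G.LC Vale.Agent.P251.G.Bun Vale.Agent.P251.Q
open Vale.Agent.P251.Q.MultTheory

section

variable {E : MultTheory.{v}} (o : Orientation E) {Z A Y : LC} {ι κ : Type} [Fintype ι]
  [Fintype κ] {n m : ℕ}

/-- the Euler operator of a pulled back bundle commutes with the Thom map -/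
theorem euler_pullback_phi [E.Good Z] (V : Bun Z ι) (W : Bun Z κ) [E.Good V.tot] [E.Good W.tot]
    [E.Good (W.pullback (⟨base, continuous_base⟩ : C(V.E, Z))).tot]
    (hV : V.IsRank n) (hW : W.IsRank m) (u : E.U Z) :
    o.euler (Z := V.tot) (W.pullback (⟨base, continuous_base⟩ : C(V.E, Z)))
      (isRank_pullback_base hW) (o.phi V hV u) = o.phi V hV (o.euler W hW u) := by
  haveI := o.goodTh
  have h1 : Over (thomMor V hV) (W.pullback (⟨base, continuous_base⟩ : C(V.E, Z)))
      (pullFst (ThO n ι) W) := by
    intro p q hq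
    have h2 : ((base p, V.toTh hV p) : Z × Th n ι) = q := OnePoint.coe_injective hq
    rw [← h2]
    rfl
  rw [phi_apply, euler_natural o (thomMor V hV) h1 (isRank_pullback_base hW) (isRank_pullF hW),
    euler_cross_right, ← phi_apply]

/-- the inclusion of a bundle into the trivial bundle -/
def incTriv (V : Bun Z ι) : V.tot ⟶ Z ⊗ Cpow ι :=
  LC.ofClosed (X := V.tot) (Y := LC.of (Z × (ι → ℂ))) Subtype.val V.isClosedEmbedding_val

theorem app_incTriv (V : Bun Z ι) (p : V.E) :
    app (incTriv V) (p : OnePoint V.E) = ((base p, vec p) : Z × (ι → ℂ)) := rfl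

theorem map_incTriv [DecidableEq ι] [E.Good Z] (V : Bun Z ι) [E.Good V.tot]
    [E.Good V.compl.tot] (hV : V.IsRank n) (h : n + m = Fintype.card ι) (u : E.U Z) :
    E.map (incTriv V) (E.cross u (o.lin ι)) =
      o.phi V hV (o.euler V.compl (isRank_compl hV h) u) := by
  haveI h1 : E.Good (triv Z ι).tot := MultTheory.Good.of_iso E (trivIso Z ι).symm
  haveI h2 : E.Good (V.sum V.compl).tot :=
    MultTheory.Good.of_iso E (Bun.Isom.sumCompl V).iso.symm
  haveI h3 : E.Good (V.compl.pullback (⟨base, continuous_base⟩ : C(V.E, Z))).tot :=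
    MultTheory.Good.of_iso E (sumIso V V.compl)
  have h5 := phi_sum o V V.compl hV (isRank_compl hV h) h u
  have h6 := phi_isom o (Bun.Isom.sumCompl V) (isRank_sum hV (isRank_compl hV h) h)
    (isRank_triv Z ι) u
  rw [h6, phi_triv] at h5
  have h7 : incTriv V = zeroMor (Z := V.tot)
      (V.compl.pullback (⟨base, continuous_base⟩ : C(V.E, Z))) ≫ (sumIso V V.compl).inv ≫
      (Bun.Isom.sumCompl V).iso.hom ≫ (trivIso Z ι).hom := by
    apply LC.hom_ext
    intro p
    rw [app_incTriv]
    have h8 : fromCols (V.P (base p)) (1 - V.P (base p)) *ᵥ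
        Sum.elim (vec p) (0 : ι → ℂ) = vec p := by
      rw [fromCols_mulVec_sumElim, mulVec_zero, add_zero, P_vec]
    have h9 : ((base p, vec p) : Z × (ι → ℂ)) =
        (base p, fromCols (V.P (base p)) (1 - V.P (base p)) *ᵥ Sum.elim (vec p) (0 : ι → ℂ)) := by
      rw [h8]
    rw [h9]
    rfl
  rw [← euler_pullback_phi o V V.compl hV (isRank_compl hV h) u, euler_apply, h7,
    MultTheory.map_comp, MultTheory.map_comp, MultTheory.map_comp, h5]
  congr 1
  exact map_inv_hom _ _

end

/-! ### Compact base -/

section compact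

variable {E : MultTheory.{v}} (o : Orientation E) {B : LC} [CompactSpace B] {ι : Type} [Fintype ι]
  {n m : ℕ}

/-- The Thom map is multiplication with the Thom class. -/
theorem phi_eq_act [E.Good B] (V : Bun B ι) [E.Good V.tot] (hV : V.IsRank n) (x : E.U B) :
    o.phi V hV x = E.act (tcb V) x (o.thom V hV) := by
  have h1 := phi_act o (ContinuousMap.id B) V hV x (E.oneU B)
  have h2 : E.act (ContinuousMap.id B) x (E.oneU B) = x := mul_one x
  rw [h2] at h1
  exact h1

/-- the projection of the total space of a bundle over a compact space to `ℂ^ι` -/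
def kap (V : Bun B ι) : V.tot ⟶ Cpow ι := incTriv V ≫ (cmap (toPt B) ▷ Cpow ι) ≫ (λ_ (Cpow ι)).hom

theorem app_kap (V : Bun B ι) (p : V.E) :
    app (kap V) (p : OnePoint V.E) = (vec p : OnePoint (ι → ℂ)) := rfl

/-- The class of the projection `V.tot ⟶ ℂ^ι` is the Thom class times the Euler class of the
complement. -/
theorem map_kap [DecidableEq ι] [E.Good B] (V : Bun B ι) [E.Good V.tot] [E.Good V.compl.tot]
    (hV : V.IsRank n) (h : n + m = Fintype.card ι) :
    E.map (kap V) (o.lin ι) = o.phi V hV (o.e V.compl (isRank_compl hV h)) := by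
  have h1 : E.cross (E.oneU B) (o.lin ι) =
      E.map ((cmap (toPt B) ▷ Cpow ι) ≫ (λ_ (Cpow ι)).hom) (o.lin ι) := by
    unfold MultTheory.oneU
    rw [cross_map_left, one_cross, ← MultTheory.map_comp]
  rw [kap, MultTheory.map_comp, ← h1, map_incTriv o V hV h]
  rfl

theorem compl_compl [DecidableEq ι] (W : Bun B ι) : W.compl.compl = W := by
  ext1
  funext b
  rw [compl_P, compl_P, sub_sub_cancel]

theorem isRank_compl' [DecidableEq ι] {W : Bun B ι} (hW : W.IsRank n)
    (h : m + n = Fintype.card ι) : W.compl.IsRank m :=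
  isRank_compl (Z := B) hW ((Nat.add_comm n m).trans h)

theorem e_congr {V W : Bun B ι} (h : V = W) (hV : V.IsRank n) (hW : W.IsRank n) :
    o.e V hV = o.e W hW := by
  subst h
  rfl

/-- KEY FORMULA: for a bundle `W` over a compact space, the class of the projection
`W.compl.tot ⟶ ℂ^ι` is the Thom class of `W.compl` times the Euler class of `W`. -/
theorem map_kap_compl [DecidableEq ι] [E.Good B] (W : Bun B ι) [E.Good W.tot]
    [E.Good W.compl.tot] (hW : W.IsRank n) (h : m + n = Fintype.card ι) :
    E.map (kap W.compl) (o.lin ι) = o.phi W.compl (isRank_compl' hW h) (o.e W hW) := by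
  have hg : E.Good W.compl.compl.tot := by
    rw [compl_compl]
    infer_instance
  rw [map_kap o W.compl (isRank_compl' hW h) h, e_congr o (compl_compl W) _ hW]

end compact

end Vale.Agent.P241.EUL
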