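import Vale.Agent.P251.M.BGlueB
import Vale.Agent.P251.M.MUFinal
import Vale.Agent.P241.H796.Nil
import Vale.Agent.P241.H46.LawRoots

/-!
# P241, part EUL: from classes of `MU^*(X)` to maps `Σ X ⊗ Y ⟶ MU ⊗ Y`

`M : MUMon F (stdEven T) e` (`MU` with its orientation `M.ori` for the theory `thK e M.R`),
`b : MUBasis M.V`, `D = M.data b`, `tU e M.R X : U(X) → Hom(Σ X, P)`, `P = D.P = MU ⊗ PS`.

* `span_pow_le_powIdeal` : `(v_0, …, v_{h-1}) ^ (h L + 1) ≤ (v_0^L, …, v_{h-1}^L)`;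
* `tU_vv_smul` : `v_i` of the law of the orientation acts as `D.vs p i`;
* `Kill p Y` : the submodule of the `x ∈ U(X)` such that `m • (tU x ▷ Y) = 0` for some `m` prime
  to `p`;
* `exists_kill` : if the `v_i`, `i < h`, are nilpotent on `P ⊗ Y` (`NilOn`), then there is an `L` such
  that for all `z ∈ I_h U(B)`, `B` compact, and all `U(pt)`-linear maps `f : U(B) → U(Z)` (for
  example a Thom map) the class `f (z ^ L)` is in `Kill p Y`.
-/

open CategoryTheory MonoidalCategory Limits Pretriangulated MonObj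
open Vale.Agent.P251.G Vale.Agent.P251.G.LC Vale.Agent.P251.I Vale.Agent.P251.T
open Vale.Agent.P251.M Vale.Agent.P251.S Vale.Agent.P251.F Vale.Agent.P251.M.EvenSpheres
open Vale.Agent.P241.H796 Vale.Agent.P093.PLoc

universe v u

set_option linter.unusedSectionVars false

noncomputable section

namespace Vale.Agent.P241.EUL

/-! ### Powers of ideals -/

section alg

variable {A : Type*} [CommRing A]

/-- the ideal generated by the `L`-th powers of the `v i`, `i < h` -/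
def powIdeal (v : ℕ → A) (h L : ℕ) : Ideal A := Ideal.span {x | ∃ i < h, v i ^ L = x}

theorem pow_mem_powIdeal {v : ℕ → A} {h L i : ℕ} (hi : i < h) : v i ^ L ∈ powIdeal v h L :=
  Ideal.subset_span ⟨i, hi, rfl⟩

theorem powIdeal_mono {v : ℕ → A} {h h' L : ℕ} (hh : h ≤ h') : powIdeal v h L ≤ powIdeal v h' L :=
  Ideal.span_mono fun _ ⟨i, hi, hx⟩ => ⟨i, hi.trans_le hh, hx⟩

theorem span_pow_le_powIdeal (v : ℕ → A) (L : ℕ) : ∀ h : ℕ,
    (Ideal.span {x | ∃ i < h, v i = x}) ^ (h * L + 1) ≤ powIdeal v h L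
  | 0 => by
    have : {x | ∃ i < 0, v i = x} = (∅ : Set A) := by
      ext x
      simp
    rw [this, Ideal.span_empty, Nat.zero_mul, Nat.zero_add, pow_one]
    exact bot_le
  | h + 1 => by
    have h1 : Ideal.span {x | ∃ i < h + 1, v i = x} ≤
        Ideal.span {x | ∃ i < h, v i = x} ⊔ Ideal.span {v h} := by
      rw [Ideal.span_le]
      rintro x ⟨i, hi, rfl⟩
      rcases Nat.lt_succ_iff_lt_or_eq.1 hi with h' | rfl
      · exact Ideal.mem_sup_left (Ideal.subset_span ⟨i, h', rfl⟩)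
      · exact Ideal.mem_sup_right (Ideal.mem_span_singleton_self _)
    have h2 : (h + 1) * L + 1 = (h * L + 1) + L := by ring
    rw [h2]
    refine (Ideal.pow_right_mono h1 _).trans ((Ideal.sup_pow_add_le_pow_sup_pow).trans ?_)
    refine sup_le ((span_pow_le_powIdeal v L h).trans (powIdeal_mono (Nat.le_succ h))) ?_
    rw [Ideal.span_singleton_pow, Ideal.span_singleton_le_iff_mem]
    exact pow_mem_powIdeal (Nat.lt_succ_self h)

theorem pow_mem_map_powIdeal {S : Type*} [CommRing S] (φ : A →+* S) (v : ℕ → A) (L h : ℕ) {z : S}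
    (hz : z ∈ (Ideal.span {x | ∃ i < h, v i = x}).map φ) :
    z ^ (h * L + 1) ∈ (powIdeal v h L).map φ := by
  have h1 := Ideal.pow_mem_pow hz (h * L + 1)
  rw [← Ideal.map_pow] at h1
  exact Ideal.map_mono (span_pow_le_powIdeal v L h) h1

end alg

/-! ### The elements `v_i` -/

variable {T : Type u} [Category.{v} T] [Preadditive T] [HasZeroObject T]
    [HasShift T ℤ] [∀ n : ℤ, (shiftFunctor T n).Additive] [Pretriangulated T] [IsTriangulated T]
    [MonoidalCategory T] [SymmetricCategory T] [TensorTriangulated T] [MonoidalClosed T]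
    [HasCoproducts.{0} T] [HasProducts.{0} T] [StableCat T]

variable {F : SpaceFunctor T} {e : F.S.obj CCF ≅ (stdEven T).L}

section gen

variable (R : T) [MonObj R] [IsCommMonObj R]

/-- the class of `a ∈ U(pt)` in degree `0` of `P = R ⊗ PS` -/
def sharpU (a : (thK e R).A) : 𝟙_ T ⟶ R ⊗ (stdEven T).PS := sharpTot (stdEven T) R (coefK e R a)

theorem tU_smul_sm (a : (thK e R).A) (X : FCat) (Y : T) (x : (thK e R).U X.obj) :
    (tU e R X (a • x) ▷ Y : F.S.obj X ⊗ Y ⟶ (R ⊗ (stdEven T).PS) ⊗ Y) =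
      tU e R X x ▷ Y ≫ (ModStr.free (R ⊗ (stdEven T).PS) Y).sm (sharpU R a) := by
  rw [tU_smul, comp_whiskerRight]
  exact congrArg (tU e R X x ▷ Y ≫ ·)
    ((ModStr.self (R ⊗ (stdEven T).PS)).tensorRight_smul Y (sharpU R a)).symm

theorem tU_pow_smul_sm (a : (thK e R).A) (L : ℕ) (X : FCat) [(thK e R).Good X.obj] (Y : T)
    (x : (thK e R).U X.obj) :
    (tU e R X (a ^ L • x) ▷ Y : F.S.obj X ⊗ Y ⟶ (R ⊗ (stdEven T).PS) ⊗ Y) =
      tU e R X x ▷ Y ≫ (((ModStr.free (R ⊗ (stdEven T).PS) Y).sm (sharpU R a) ^ L :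
        End ((R ⊗ (stdEven T).PS) ⊗ Y)) :
          (R ⊗ (stdEven T).PS) ⊗ Y ⟶ (R ⊗ (stdEven T).PS) ⊗ Y) := by
  induction L generalizing x with
  | zero =>
    have h1 : a ^ 0 • x = x := by rw [pow_zero, one_smul]
    rw [h1]
    exact (Category.comp_id _).symm
  | succ L ih =>
    have h1 : a ^ (L + 1) • x = a ^ L • (a • x) := by rw [pow_succ, mul_smul]
    rw [h1, ih, tU_smul_sm, Category.assoc, pow_succ]
    rfl

/-- The classes `x ∈ U(X)` such that `m • (tU x ▷ Y) = 0` for some `m` prime to `p`. -/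
def KillP (p : ℕ) (Y : T) (X : FCat) [(thK e R).Good X.obj] :
    Submodule (thK e R).A ((thK e R).U X.obj) where
  carrier := {x | ∃ m ∈ cop p,
    m • (tU e R X x ▷ Y : F.S.obj X ⊗ Y ⟶ (R ⊗ (stdEven T).PS) ⊗ Y) = 0}
  add_mem' := by
    rintro x y ⟨m, hm, hx⟩ ⟨n, hn, hy⟩
    refine ⟨m * n, mul_mem hm hn, ?_⟩
    rw [map_add, MonoidalPreadditive.add_whiskerRight, smul_add, mul_smul, mul_smul, hy,
      smul_zero, add_zero, smul_comm, hx, smul_zero]
  zero_mem' := ⟨1, one_mem _, by rw [map_zero, MonoidalPreadditive.zero_whiskerRight, smul_zero]⟩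
  smul_mem' := by
    rintro a x ⟨m, hm, hx⟩
    refine ⟨m, hm, ?_⟩
    rw [tU_smul_sm, ← Preadditive.zsmul_comp, hx, zero_comp]

theorem mem_killP {p : ℕ} {Y : T} {X : FCat} [(thK e R).Good X.obj] {x : (thK e R).U X.obj} :
    x ∈ KillP R p Y X ↔ ∃ m ∈ cop p,
      m • (tU e R X x ▷ Y : F.S.obj X ⊗ Y ⟶ (R ⊗ (stdEven T).PS) ⊗ Y) = 0 := Iff.rfl

theorem pow_smul_mem_killP {p L : ℕ} {Y : T} {m : ℤ} (hm : m ∈ cop p) {a : (thK e R).A}
    (h : m • ((ModStr.free (R ⊗ (stdEven T).PS) Y).sm (sharpU R a) ^ L :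
      End ((R ⊗ (stdEven T).PS) ⊗ Y)) = 0) (X : FCat) [(thK e R).Good X.obj]
    (x : (thK e R).U X.obj) : a ^ L • x ∈ KillP R p Y X := by
  refine ⟨m, hm, ?_⟩
  rw [tU_pow_smul_sm, ← Preadditive.comp_zsmul]
  exact (congrArg (tU e R X x ▷ Y ≫ ·) h).trans comp_zero

/-- A uniform exponent. -/
theorem exists_exponent {p h : ℕ} {Y : T} (v : ℕ → (thK e R).A)
    (hN : ∀ i < h, NilOn (P := R ⊗ (stdEven T).PS) p Y (sharpU R (v i))) :
    ∃ L : ℕ, ∀ i < h, ∃ m ∈ cop p,
      m • ((ModStr.free (R ⊗ (stdEven T).PS) Y).sm (sharpU R (v i)) ^ L :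
        End ((R ⊗ (stdEven T).PS) ⊗ Y)) = 0 := by
  choose! m L hm h0 using hN
  refine ⟨(Finset.range h).sup L, fun i hi => ⟨m i, hm i hi, ?_⟩⟩
  have hle : L i ≤ (Finset.range h).sup L := Finset.le_sup (f := L) (Finset.mem_range.2 hi)
  obtain ⟨k, hk⟩ := Nat.exists_eq_add_of_le hle
  rw [hk, pow_add, ← smul_mul_assoc, h0 i hi, zero_mul]

theorem powIdeal_smul_le {p h L : ℕ} {Y : T} (v : ℕ → (thK e R).A)
    (hL : ∀ i < h, ∃ m ∈ cop p,
      m • ((ModStr.free (R ⊗ (stdEven T).PS) Y).sm (sharpU R (v i)) ^ L :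
        End ((R ⊗ (stdEven T).PS) ⊗ Y)) = 0) (X : FCat) [(thK e R).Good X.obj] :
    powIdeal v h L • (⊤ : Submodule (thK e R).A ((thK e R).U X.obj)) ≤ KillP R p Y X := by
  rw [Submodule.smul_le]
  intro a ha x _
  refine Submodule.span_induction (p := fun a _ => a • x ∈ KillP R p Y X) ?_ ?_ ?_ ?_ ha
  · rintro a ⟨i, hi, rfl⟩
    obtain ⟨m, hm, h0⟩ := hL i hi
    exact pow_smul_mem_killP R hm h0 X x
  · rw [zero_smul]; exact zero_mem _
  · intro a a' _ _ h1 h2
    rw [add_smul]; exact add_mem h1 h2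
  · intro c a _ h1
    rw [smul_eq_mul, mul_smul]
    exact Submodule.smul_mem _ c h1

/-- **Classes in the ideal `(v_0, …, v_{h-1})` become zero on `Y`**: the exponent `L` depends only
on `Y`. -/
theorem exists_killP_gen {p h : ℕ} {Y : T} (v : ℕ → (thK e R).A)
    (hN : ∀ i < h, NilOn (P := R ⊗ (stdEven T).PS) p Y (sharpU R (v i))) :
    ∃ L : ℕ, ∀ (B Z : FCat) [CompactSpace B.obj] [(thK e R).Good B.obj] [(thK e R).Good Z.obj]
      (f : (thK e R).U B.obj →ₗ[(thK e R).A] (thK e R).U Z.obj) (z : (thK e R).U B.obj),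
      z ∈ (Ideal.span {x | ∃ i < h, v i = x}).map
        (algebraMap (thK e R).A ((thK e R).U B.obj)) →
        ∀ N : ℕ, L ≤ N → f (z ^ N) ∈ KillP R p Y Z := by
  obtain ⟨L, hL⟩ := exists_exponent R v hN
  refine ⟨h * L + 1, fun B Z _ _ _ f z hz N hN => ?_⟩
  have h1 : z ^ (h * L + 1) ∈ (powIdeal v h L).map
      (algebraMap (thK e R).A ((thK e R).U B.obj)) := pow_mem_map_powIdeal _ v L h hz
  have h2 : z ^ N ∈ (powIdeal v h L).map (algebraMap (thK e R).A ((thK e R).U B.obj)) := by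
    obtain ⟨k, rfl⟩ := Nat.exists_eq_add_of_le hN
    rw [pow_add]
    exact Ideal.mul_mem_right _ _ h1
  have h3 : z ^ N ∈ powIdeal v h L • (⊤ : Submodule (thK e R).A ((thK e R).U B.obj)) := by
    rw [Ideal.smul_top_eq_map]
    exact h2
  have h4 : f (z ^ N) ∈ powIdeal v h L • (⊤ : Submodule (thK e R).A ((thK e R).U Z.obj)) := by
    have h5 := Submodule.mem_map_of_mem (f := f) h3
    rw [Submodule.map_smul''] at h5
    exact Submodule.smul_mono le_rfl le_top h5
  exact powIdeal_smul_le R v hL Z h4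

end gen

/-! ### The case of `MU` -/

variable (M : MUMon F (stdEven T) e) (b : MUBasis M.V)

theorem coefK_vv (p i : ℕ) :
    coefK e M.R (vv p i M.ori.law) = vv p i (M.data b).law :=
  (vv_map p i (coefK e M.R) M.ori.law).symm.trans (congrArg (vv p i) (M.data_law b).symm)

/-- `v_i` of the law of the orientation gives the class `D.vs p i` -/
theorem sharpU_vv (p i : ℕ) : sharpU M.R (vv p i M.ori.law) = (M.data b).vs p i :=
  (congrArg (sharpTot (stdEven T) M.R)
    ((coefK_vv M b p i).trans ((M.data b).vel_spec p i))).trans (sharpTot_of _ _)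

theorem nilOn_sharpU {p i : ℕ} {Y : T} (h : NilOn p Y ((M.data b).vs p i)) :
    NilOn (P := M.R ⊗ (stdEven T).PS) p Y (sharpU M.R (vv p i M.ori.law)) := by
  rw [sharpU_vv M b]
  exact h

/-- **Classes in the ideal `I_h` become zero on `Y`**: the exponent `L` depends only on `Y`. -/
theorem exists_killP {p h : ℕ} {Y : T} (hN : ∀ i < h, NilOn p Y ((M.data b).vs p i)) :
    ∃ L : ℕ, ∀ (B Z : FCat) [CompactSpace B.obj] [(thK e M.R).Good B.obj]
      [(thK e M.R).Good Z.obj]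
      (f : (thK e M.R).U B.obj →ₗ[(thK e M.R).A] (thK e M.R).U Z.obj) (z : (thK e M.R).U B.obj),
      z ∈ (Ih p h M.ori.law).map (algebraMap (thK e M.R).A ((thK e M.R).U B.obj)) →
        ∀ N : ℕ, L ≤ N → f (z ^ N) ∈ KillP M.R p Y Z :=
  exists_killP_gen M.R (fun i => vv p i M.ori.law) fun i hi => nilOn_sharpU M b (hN i hi)

end Vale.Agent.P241.EUL
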