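import Vale.Agent.P241.EUL.Frame
import Vale.Agent.P251.Q.Euler
import Vale.Agent.P251.Q.GoodBase
import Vale.Agent.P251.Q.TPowClass
import Vale.Agent.P251.Q.LineCls

/-!
# P241, part EUL: Euler classes of finite direct sums of representations

* `Rep.sigma U`, `Frame.sigma F`, `Frame.bun_sigma` : the direct sum of a finite family;
* `e_frame` : the Euler class of `F.bun` depends only on the representation;
* `e_frame_sigma` : the Euler class of a direct sum is the product of the Euler classes;
* `Rep.diag c` : the diagonal representation with the characters `c k : Rep V Unit`;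
* `e_frame_diag` : its Euler class is the product of the Euler classes of the line bundles;
  `e_frame_diag_pow` : `K` copies of a family of characters;
* `e_eq_lc` : Euler classes of line bundles as `o.lc`.
-/

open Matrix Topology

universe w

noncomputable section

namespace Vale.Agent.P241.EUL

open Vale.Agent.P251.G Vale.Agent.P251.Q

variable {V : Type} [Group V] {E : Type} [TopologicalSpace E] [MulAction V E]

/-! ### Direct sums of finite families -/

section sigma

variable {J : Type} [Fintype J] [DecidableEq J] {κ : J → Type} [∀ j, Fintype (κ j)]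
  [∀ j, DecidableEq (κ j)] {ι : J → Type} [∀ j, Fintype (ι j)]

/-- the direct sum of a finite family of representations -/
def Rep.sigma (U : ∀ j, Rep V (κ j)) : Rep V (Σ j, κ j) where
  toFun v := ⟨blockDiagonal' fun j => (U j v : Matrix (κ j) (κ j) ℂ), by
    rw [Matrix.mem_unitaryGroup_iff, star_eq_conjTranspose, blockDiagonal'_conjTranspose,
      ← blockDiagonal'_mul]
    simp only [(U _).mul_star]
    exact blockDiagonal'_one⟩
  map_one' := by
    apply Subtype.ext
    change blockDiagonal' (fun j => ((U j 1 : unitaryGroup (κ j) ℂ) : Matrix (κ j) (κ j) ℂ)) = 1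
    simp only [map_one, OneMemClass.coe_one]
    exact blockDiagonal'_one
  map_mul' v w := by
    apply Subtype.ext
    change blockDiagonal' (fun j => ((U j (v * w) : unitaryGroup (κ j) ℂ) :
      Matrix (κ j) (κ j) ℂ)) = blockDiagonal' _ * blockDiagonal' _
    rw [← blockDiagonal'_mul]
    simp only [map_mul, Submonoid.coe_mul]

@[simp] theorem Rep.sigma_coe (U : ∀ j, Rep V (κ j)) (v : V) :
    (Rep.sigma U v : Matrix (Σ j, κ j) (Σ j, κ j) ℂ) =
      blockDiagonal' fun j => (U j v : Matrix (κ j) (κ j) ℂ) := rfl

/-- the direct sum of a finite family of frames -/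
@[simps] def Frame.sigma {U : ∀ j, Rep V (κ j)} (F : ∀ j, Frame E (U j) (ι j)) :
    Frame E (Rep.sigma U) (Σ j, ι j) where
  R e := blockDiagonal' fun j => (F j).R e
  cont := (continuous_pi fun j => (F j).cont).matrix_blockDiagonal'
  isom e := by
    rw [blockDiagonal'_conjTranspose, ← blockDiagonal'_mul]
    simp only [(F _).isom]
    exact blockDiagonal'_one
  equi v e := by
    rw [Rep.sigma_coe, ← blockDiagonal'_mul]
    simp only [(F _).equi]

theorem Frame.bun_sigma {U : ∀ j, Rep V (κ j)} (F : ∀ j, Frame E (U j) (ι j))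
    {B : Type} [TopologicalSpace B] {q : E → B} (hq : IsQuo V q) :
    (Frame.sigma F).bun hq = Bun.sigma fun j => (F j).bun hq := by
  ext1
  funext b
  obtain ⟨e, rfl⟩ := hq.surj b
  rw [Bun.sigma_P, Frame.bun_P, Frame.sigma_R, blockDiagonal'_conjTranspose,
    ← blockDiagonal'_mul]
  simp only [Frame.bun_P]

end sigma

/-! ### Diagonal representations -/

section diag

variable {κ : Type} [Fintype κ] [DecidableEq κ] {ι : κ → Type} [∀ k, Fintype (ι k)]

/-- the number by which a one dimensional representation acts -/
def Rep.num (c : Rep V Unit) (v : V) : ℂ := (c v : Matrix Unit Unit ℂ) () ()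

theorem Rep.coe_eq_num (c : Rep V Unit) (v : V) :
    (c v : Matrix Unit Unit ℂ) = fun _ _ => c.num v := rfl

theorem Rep.num_one (c : Rep V Unit) : c.num 1 = 1 := by
  rw [Rep.num, map_one, OneMemClass.coe_one, one_apply_eq]

theorem Rep.num_mul (c : Rep V Unit) (v w : V) : c.num (v * w) = c.num v * c.num w := by
  rw [Rep.num, map_mul, Submonoid.coe_mul, mul_apply]
  simp [Rep.num]

theorem Rep.num_mul_star (c : Rep V Unit) (v : V) : c.num v * star (c.num v) = 1 := by
  have h := congrFun (congrFun (c.mul_star v) ()) ()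
  rw [mul_apply] at h
  simpa [Rep.num] using h

/-- the diagonal representation with given characters -/
def Rep.diag (c : κ → Rep V Unit) : Rep V κ where
  toFun v := ⟨diagonal fun k => (c k).num v, by
    rw [Matrix.mem_unitaryGroup_iff, star_eq_conjTranspose, diagonal_conjTranspose,
      diagonal_mul_diagonal]
    simp only [Pi.star_apply, Rep.num_mul_star]
    exact diagonal_one⟩
  map_one' := by
    apply Subtype.ext
    change diagonal (fun k => (c k).num 1) = 1
    simp only [Rep.num_one]
    exact diagonal_one
  map_mul' v w := by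
    apply Subtype.ext
    change diagonal (fun k => (c k).num (v * w)) = diagonal _ * diagonal _
    rw [diagonal_mul_diagonal]
    simp only [Rep.num_mul]

@[simp] theorem Rep.diag_coe (c : κ → Rep V Unit) (v : V) :
    (Rep.diag c v : Matrix κ κ ℂ) = diagonal fun k => (c k).num v := rfl

/-- frames of diagonal representations -/
@[simps] def Frame.diag {c : κ → Rep V Unit} (F : ∀ k, Frame E (c k) (ι k)) :
    Frame E (Rep.diag c) (Σ k, ι k) where
  R e := Matrix.of fun i k => if i.1 = k then (F i.1).R e i.2 () else 0
  cont := by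
    refine continuous_matrix fun i k => ?_
    by_cases h : i.1 = k
    · subst h
      simpa using (F i.1).cont.matrix_elem i.2 ()
    · simpa [h] using continuous_const
  isom e := by
    ext k k'
    rw [mul_apply, Fintype.sum_sigma]
    simp only [conjTranspose_apply, of_apply]
    by_cases h : k = k'
    · subst h
      rw [one_apply_eq, Finset.sum_eq_single k]
      · have h1 := congrFun (congrFun ((F k).isom e) ()) ()
        rw [mul_apply, one_apply_eq] at h1
        simpa using h1
      · intro j _ hj
        simp [hj]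
      · intro h1
        exact absurd (Finset.mem_univ k) h1
    · rw [one_apply_ne h]
      refine Finset.sum_eq_zero fun j _ => Finset.sum_eq_zero fun i _ => ?_
      by_cases hj : j = k
      · subst hj
        simp [h]
      · simp [hj]
  equi v e := by
    ext i k
    rw [Rep.diag_coe, mul_diagonal, of_apply, of_apply]
    by_cases h : i.1 = k
    · subst h
      have h1 := congrFun (congrFun ((F i.1).equi v e) i.2) ()
      rw [mul_apply] at h1
      simpa [Rep.num] using h1
    · simp [h]

/-- The bundle of a diagonal representation is the direct sum of the line bundles. -/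
theorem Frame.bun_diag {c : κ → Rep V Unit} (F : ∀ k, Frame E (c k) (ι k))
    {B : Type} [TopologicalSpace B] {q : E → B} (hq : IsQuo V q) :
    (Frame.diag F).bun hq = Bun.sigma fun k => (F k).bun hq := by
  ext1
  funext b
  obtain ⟨e, rfl⟩ := hq.surj b
  rw [Bun.sigma_P, Frame.bun_P]
  ext ⟨a, a'⟩ ⟨b, b'⟩
  rw [mul_apply]
  simp only [Frame.diag_R, conjTranspose_apply, of_apply]
  by_cases h : a = b
  · subst h
    rw [blockDiagonal'_apply_eq, Frame.bun_P, mul_apply, Finset.sum_eq_single a]
    · simp
    · intro k _ hk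
      simp [hk.symm]
    · intro h1
      exact absurd (Finset.mem_univ a) h1
  · rw [blockDiagonal'_apply_ne _ _ _ h]
    refine Finset.sum_eq_zero fun k _ => ?_
    by_cases hk : a = k
    · subst hk
      simp [Ne.symm h]
    · simp [hk]

end diag

/-! ### Euler classes -/

section euler

variable {Th : MultTheory.{w}} (o : Orientation Th) {B : LC} [CompactSpace B]
  [hB : GoodBase Th B] {q : E → B} (hq : IsQuo V q)

/-- The Euler class depends only on the representation. -/
theorem e_frame {κ : Type} [Fintype κ] [DecidableEq κ] {U : Rep V κ} {ι ι' : Type} [Fintype ι]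
    [Fintype ι'] {n : ℕ} (F : Frame E U ι) (F' : Frame E U ι') (h : (F.bun hq).IsRank n)
    (h' : (F'.bun hq).IsRank n) : o.e (F.bun hq) h = o.e (F'.bun hq) h' := by
  have := hB.tot _ h
  have := hB.tot _ h'
  exact e_isom o (F.bunIsom F' hq) h h'

/-- The Euler class of a direct sum of representations. -/
theorem e_frame_sigma {J : Type} [Fintype J] [DecidableEq J] {κ : J → Type}
    [∀ j, Fintype (κ j)] [∀ j, DecidableEq (κ j)] {ι : J → Type} [∀ j, Fintype (ι j)]
    {U : ∀ j, Rep V (κ j)} (F : ∀ j, Frame E (U j) (ι j)) {ι' : Type} [Fintype ι']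
    (F' : Frame E (Rep.sigma U) ι') {n : ℕ} (r : J → ℕ) (hr : ∀ j, ((F j).bun hq).IsRank (r j))
    (h' : (F'.bun hq).IsRank n) (hn : ∑ j, r j = n) :
    o.e (F'.bun hq) h' = ∏ j, o.e ((F j).bun hq) (hr j) := by
  subst hn
  have h1 : ((Frame.sigma F).bun hq).IsRank (∑ j, r j) := by
    rw [Frame.bun_sigma]
    exact Bun.IsRank.sigma hr
  rw [e_frame o hq F' (Frame.sigma F) h' h1, ← e_sigma o (fun j => (F j).bun hq) r hr]
  congr 1
  exact Frame.bun_sigma F hq

/-- The Euler class of a diagonal representation. -/
theorem e_frame_diag {κ : Type} [Fintype κ] [DecidableEq κ] {ι : κ → Type} [∀ k, Fintype (ι k)]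
    {c : κ → Rep V Unit} (F : ∀ k, Frame E (c k) (ι k)) {ι' : Type} [Fintype ι']
    (F' : Frame E (Rep.diag c) ι') {n : ℕ} (hr : ∀ k, ((F k).bun hq).IsRank 1)
    (h' : (F'.bun hq).IsRank n) (hn : Fintype.card κ = n) :
    o.e (F'.bun hq) h' = ∏ k, o.e ((F k).bun hq) (hr k) := by
  have hs : ∑ _k : κ, 1 = n := by simpa using hn
  subst hs
  have h1 : ((Frame.diag F).bun hq).IsRank (∑ _k : κ, 1) := by
    rw [Frame.bun_diag]
    exact Bun.IsRank.sigma hr
  rw [e_frame o hq F' (Frame.diag F) h' h1, ← e_sigma o (fun k => (F k).bun hq) (fun _ => 1) hr]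
  congr 1
  exact Frame.bun_diag F hq

/-- `K` copies of a family of characters. -/
theorem e_frame_diag_pow {κ : Type} [Fintype κ] [DecidableEq κ] {ι : κ → Type}
    [∀ k, Fintype (ι k)] {c : κ → Rep V Unit} (F : ∀ k, Frame E (c k) (ι k)) (K : ℕ) {ι' : Type}
    [Fintype ι'] (F' : Frame E (Rep.diag fun i : Fin K × κ => c i.2) ι') {n : ℕ}
    (hr : ∀ k, ((F k).bun hq).IsRank 1) (h' : (F'.bun hq).IsRank n)
    (hn : K * Fintype.card κ = n) :
    o.e (F'.bun hq) h' = (∏ k, o.e ((F k).bun hq) (hr k)) ^ K := by
  rw [e_frame_diag o hq (fun i : Fin K × κ => F i.2) F' (fun i => hr i.2) h' (by simpa using hn),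
    Fintype.prod_prod_type]
  refine (Finset.prod_const (∏ k, o.e ((F k).bun hq) (hr k))).trans ?_
  rw [Finset.card_univ, Fintype.card_fin]

/-- The Euler class of a representation with an invariant vector vanishes: the trivial line. -/
theorem e_frame_one {ι : Type} [Fintype ι] {c : Rep V Unit} (hc : ∀ v, c.num v = 1)
    (F : Frame E c ι) (h : (F.bun hq).IsRank 1) : o.e (F.bun hq) h = 0 := by
  have := hB.tot _ h
  have hinv : ∀ (v : V) e, (fun i => F.R (v • e) i ()) = fun i => F.R e i () := by
    intro v e
    funext i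
    have h1 := congrFun (congrFun (F.equi v e) i) ()
    rw [mul_apply] at h1
    simpa [hc v, Rep.coe_eq_num] using h1
  refine e_eq_zero o _ h ⟨hq.desc fun e => fun i => F.R e i (),
    hq.continuous_desc (continuous_pi fun i => F.cont.matrix_elem i ()) hinv, fun b => ?_⟩
    fun b => ?_
  · obtain ⟨e, rfl⟩ := hq.surj b
    rw [hq.desc_apply (f := fun e => fun i => F.R e i ()) hinv, Frame.bun_P]
    have h1 : (fun i => F.R e i ()) = F.R e *ᵥ (fun _ => 1) := by
      funext i
      simp [mulVec, dotProduct]
    rw [h1, mulVec_mulVec, Matrix.mul_assoc, F.isom, Matrix.mul_one]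
  · obtain ⟨e, rfl⟩ := hq.surj b
    change nsq (hq.desc (fun e => fun i => F.R e i ()) (q e)) = 1
    rw [hq.desc_apply (f := fun e => fun i => F.R e i ()) hinv]
    have h1 := congrFun (congrFun (F.isom e) ()) ()
    rw [mul_apply, one_apply_eq] at h1
    have h2 : ((nsq fun i => F.R e i () : ℝ) : ℂ) = 1 := by
      rw [nsq_eq_dotProduct]
      simpa [dotProduct] using h1
    exact_mod_cast h2

/-- Euler classes of line bundles. -/
theorem e_eq_lc {ι : Type} [Fintype ι] (L : Bun B ι) (hL : L.IsRank 1) :
    o.e L hL = o.lc (lineCls L hL) := e_eq_map_z o L hL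

end euler

end Vale.Agent.P241.EUL
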