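import Vale.Agent.P251.Q.ThomIsom
import Vale.Agent.P251.Q.CoefClass
import Mathlib.LinearAlgebra.UnitaryGroup

/-!
# P241, part EUL: equivariant frames and the bundles they define over the quotient

`V` a group acting on a space `E`, `q : E → B` a quotient map whose fibres are the `V`-orbits,
`U : V → Matrix κ κ ℂ` a unitary representation.

* `Frame E U ι` : a continuous family `R e : ℂ^κ → ℂ^ι` of isometries with
  `R (v • e) * U v = R e`;
* `F.bun hq : Bun B ι` : the bundle over `B` with fibre `im (R e)`; its rank is `|κ|`;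
* `Frame.isom` : the bundles of any two frames of a representation are isometric;
* `Frame.inter` : change of the representation by an intertwiner;
* `Frame.sum`, `Frame.kron`, `bun_sum`, `bun_kron` : direct sums and tensor products;
* `Frame.triv` : the trivial representation.
-/

open Matrix Topology

noncomputable section

namespace Vale.Agent.P241.EUL

open Vale.Agent.P251.G Vale.Agent.P251.Q

/-- `B` is the quotient of `E` by `V`. -/
structure IsQuo (V : Type) [Group V] {E B : Type} [TopologicalSpace E] [TopologicalSpace B]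
    [MulAction V E] (q : E → B) : Prop where
  quot : IsQuotientMap q
  orb : ∀ e e', q e = q e' ↔ ∃ v : V, v • e = e'

namespace IsQuo

variable {V : Type} [Group V] {E B : Type} [TopologicalSpace E] [TopologicalSpace B]
  [MulAction V E] {q : E → B} (hq : IsQuo V q)
include hq

theorem surj : Function.Surjective q := hq.quot.surjective

theorem smul (v : V) (e : E) : q (v • e) = q e := ((hq.orb _ _).2 ⟨v, rfl⟩).symm

/-- descend an invariant function -/
def desc {X : Type*} (f : E → X) : B → X := fun b => f (hq.surj b).choose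

theorem desc_apply {X : Type*} {f : E → X} (hf : ∀ (v : V) e, f (v • e) = f e) (e : E) :
    hq.desc f (q e) = f e := by
  obtain ⟨v, hv⟩ := (hq.orb _ _).1 (hq.surj (q e)).choose_spec
  exact (hf v _).symm.trans (congrArg f hv)

theorem continuous_desc {X : Type*} [TopologicalSpace X] {f : E → X} (hc : Continuous f)
    (hf : ∀ (v : V) e, f (v • e) = f e) : Continuous (hq.desc f) := by
  rw [hq.quot.continuous_iff]
  exact hc.congr fun e => (hq.desc_apply hf e).symm

end IsQuo

variable {V : Type} [Group V] {E : Type} [TopologicalSpace E] [MulAction V E]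

/-- A unitary representation of `V` on `ℂ^κ`. -/
abbrev Rep (V : Type) [Group V] (κ : Type) [Fintype κ] [DecidableEq κ] :=
  V →* Matrix.unitaryGroup κ ℂ

section

variable {κ : Type} [Fintype κ] [DecidableEq κ]

theorem Rep.mul_star (U : Rep V κ) (v : V) :
    (U v : Matrix κ κ ℂ) * (U v : Matrix κ κ ℂ)ᴴ = 1 := (Matrix.mem_unitaryGroup_iff).1 (U v).2

theorem Rep.star_mul (U : Rep V κ) (v : V) :
    (U v : Matrix κ κ ℂ)ᴴ * (U v : Matrix κ κ ℂ) = 1 := (Matrix.mem_unitaryGroup_iff').1 (U v).2

end

/-- An equivariant frame: a continuous family of isometries `R e : ℂ^κ → ℂ^ι` with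
`R (v • e) * U v = R e`. -/
structure Frame (E : Type) [TopologicalSpace E] [MulAction V E] {κ : Type} [Fintype κ]
    [DecidableEq κ] (U : Rep V κ) (ι : Type) [Fintype ι] where
  /-- the isometries -/
  R : E → Matrix ι κ ℂ
  cont : Continuous R
  isom : ∀ e, (R e)ᴴ * R e = 1
  equi : ∀ (v : V) (e : E), R (v • e) * (U v : Matrix κ κ ℂ) = R e

namespace Frame

variable {κ κ' : Type} [Fintype κ] [DecidableEq κ] [Fintype κ'] [DecidableEq κ']
  {U : Rep V κ} {U' : Rep V κ'} {ι ι' : Type} [Fintype ι] [Fintype ι']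

theorem equi' (F : Frame E U ι) (v : V) (e : E) :
    F.R (v • e) = F.R e * (U v : Matrix κ κ ℂ)ᴴ := by
  rw [← F.equi v e, Matrix.mul_assoc, U.mul_star, Matrix.mul_one]

/-- the products `R' Rᴴ` are invariant -/
theorem mul_invariant (F : Frame E U ι) (F' : Frame E U ι') (v : V) (e : E) :
    F'.R (v • e) * (F.R (v • e))ᴴ = F'.R e * (F.R e)ᴴ := by
  rw [F'.equi', F.equi', conjTranspose_mul, conjTranspose_conjTranspose, Matrix.mul_assoc,
    ← Matrix.mul_assoc (U v : Matrix κ κ ℂ)ᴴ, U.star_mul, Matrix.one_mul]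

variable {B : Type} [TopologicalSpace B] {q : E → B}

/-- The bundle over the quotient. -/
def bun (F : Frame E U ι) (hq : IsQuo V q) : Bun B ι where
  P := hq.desc fun e => F.R e * (F.R e)ᴴ
  cont := hq.continuous_desc (F.cont.matrix_mul F.cont.matrix_conjTranspose)
    fun v e => F.mul_invariant F v e
  idem b := by
    obtain ⟨e, rfl⟩ := hq.surj b
    rw [hq.desc_apply (f := fun e => F.R e * (F.R e)ᴴ) (F.mul_invariant F), Matrix.mul_assoc, ← Matrix.mul_assoc (F.R e)ᴴ, F.isom,
      Matrix.one_mul]
  herm b := by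
    obtain ⟨e, rfl⟩ := hq.surj b
    rw [hq.desc_apply (f := fun e => F.R e * (F.R e)ᴴ) (F.mul_invariant F), conjTranspose_mul, conjTranspose_conjTranspose]

theorem bun_P (F : Frame E U ι) (hq : IsQuo V q) (e : E) :
    (F.bun hq).P (q e) = F.R e * (F.R e)ᴴ :=
  hq.desc_apply (f := fun e => F.R e * (F.R e)ᴴ) (F.mul_invariant F) e

theorem isRank (F : Frame E U ι) (hq : IsQuo V q) {n : ℕ} (hn : Fintype.card κ = n) :
    (F.bun hq).IsRank n := by
  intro b
  obtain ⟨e, rfl⟩ := hq.surj b
  rw [bun_P, trace_mul_comm, F.isom, trace_one, hn]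

/-- The bundles of two frames of a representation are isometric. -/
def bunIsom (F : Frame E U ι) (F' : Frame E U ι') (hq : IsQuo V q) :
    (F.bun hq).Isom (F'.bun hq) where
  u := hq.desc fun e => F'.R e * (F.R e)ᴴ
  cont := hq.continuous_desc (F'.cont.matrix_mul F.cont.matrix_conjTranspose)
    fun v e => F.mul_invariant F' v e
  left b := by
    obtain ⟨e, rfl⟩ := hq.surj b
    rw [hq.desc_apply (f := fun e => F'.R e * (F.R e)ᴴ) (F.mul_invariant F'), bun_P, conjTranspose_mul, conjTranspose_conjTranspose,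
      Matrix.mul_assoc, ← Matrix.mul_assoc (F'.R e)ᴴ, F'.isom, Matrix.one_mul]
  right b := by
    obtain ⟨e, rfl⟩ := hq.surj b
    rw [hq.desc_apply (f := fun e => F'.R e * (F.R e)ᴴ) (F.mul_invariant F'), bun_P, conjTranspose_mul, conjTranspose_conjTranspose,
      Matrix.mul_assoc, ← Matrix.mul_assoc (F.R e)ᴴ, F.isom, Matrix.one_mul]

/-- Change of the representation by an isometric isomorphism. -/
@[simps] def inter (F : Frame E U ι) (T : Matrix κ κ' ℂ) (hT : Tᴴ * T = 1)
    (h : ∀ v, T * (U' v : Matrix κ' κ' ℂ) = (U v : Matrix κ κ ℂ) * T) : Frame E U' ι where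
  R e := F.R e * T
  cont := F.cont.matrix_mul continuous_const
  isom e := by
    rw [conjTranspose_mul, Matrix.mul_assoc, ← Matrix.mul_assoc (F.R e)ᴴ, F.isom, Matrix.one_mul,
      hT]
  equi v e := by
    rw [Matrix.mul_assoc, h, ← Matrix.mul_assoc, F.equi]

/-- Pull back along an equivariant map. -/
@[simps] def comap {E' : Type} [TopologicalSpace E'] [MulAction V E'] (F : Frame E U ι)
    (f : E' → E) (hf : Continuous f) (hv : ∀ (v : V) e, f (v • e) = v • f e) : Frame E' U ι where
  R e := F.R (f e)
  cont := F.cont.comp hf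
  isom e := F.isom _
  equi v e := by rw [hv, F.equi]

end Frame

/-! ### Direct sums -/

section sum

variable {κ κ' : Type} [Fintype κ] [DecidableEq κ] [Fintype κ'] [DecidableEq κ']
  {ι ι' : Type} [Fintype ι] [Fintype ι']

/-- the direct sum of two representations -/
def Rep.sum (U : Rep V κ) (U' : Rep V κ') : Rep V (κ ⊕ κ') where
  toFun v := ⟨fromBlocks (U v) 0 0 (U' v), by
    rw [Matrix.mem_unitaryGroup_iff, star_eq_conjTranspose, fromBlocks_conjTranspose,
      fromBlocks_multiply]
    simp only [conjTranspose_zero, Matrix.zero_mul, Matrix.mul_zero, add_zero, zero_add,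
      U.mul_star, U'.mul_star, fromBlocks_one]⟩
  map_one' := by
    apply Subtype.ext
    simp [fromBlocks_one]
  map_mul' v w := by
    apply Subtype.ext
    simp [fromBlocks_multiply]

@[simp] theorem Rep.sum_coe (U : Rep V κ) (U' : Rep V κ') (v : V) :
    (U.sum U' v : Matrix (κ ⊕ κ') (κ ⊕ κ') ℂ) = fromBlocks (U v) 0 0 (U' v) := rfl

/-- the direct sum of two frames -/
@[simps] def Frame.sum {U : Rep V κ} {U' : Rep V κ'} (F : Frame E U ι) (F' : Frame E U' ι') :
    Frame E (U.sum U') (ι ⊕ ι') where
  R e := fromBlocks (F.R e) 0 0 (F'.R e)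
  cont := F.cont.matrix_fromBlocks continuous_const continuous_const F'.cont
  isom e := by
    rw [fromBlocks_conjTranspose, fromBlocks_multiply]
    simp only [conjTranspose_zero, Matrix.zero_mul, Matrix.mul_zero, add_zero, zero_add,
      F.isom, F'.isom, fromBlocks_one]
  equi v e := by
    rw [Rep.sum_coe, fromBlocks_multiply]
    simp only [Matrix.zero_mul, Matrix.mul_zero, add_zero, zero_add, F.equi, F'.equi]

theorem Frame.bun_sum {U : Rep V κ} {U' : Rep V κ'} (F : Frame E U ι) (F' : Frame E U' ι')
    {B : Type} [TopologicalSpace B] {q : E → B} (hq : IsQuo V q) :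
    (F.sum F').bun hq = (F.bun hq).sum (F'.bun hq) := by
  ext1
  funext b
  obtain ⟨e, rfl⟩ := hq.surj b
  rw [Bun.sum_P, Frame.bun_P, Frame.bun_P, Frame.bun_P, Frame.sum_R, fromBlocks_conjTranspose,
    fromBlocks_multiply]
  simp only [conjTranspose_zero, Matrix.zero_mul, Matrix.mul_zero, add_zero, zero_add]

end sum

/-! ### Tensor products -/

section kron

variable {κ κ' : Type} [Fintype κ] [DecidableEq κ] [Fintype κ'] [DecidableEq κ']
  {ι ι' : Type} [Fintype ι] [Fintype ι']

/-- the tensor product of two representations -/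
def Rep.kron (U : Rep V κ) (U' : Rep V κ') : Rep V (κ × κ') where
  toFun v := ⟨kroneckerMap (· * ·) (U v : Matrix κ κ ℂ) (U' v : Matrix κ' κ' ℂ), by
    rw [Matrix.mem_unitaryGroup_iff, star_eq_conjTranspose, conjTranspose_kronecker,
      ← mul_kronecker_mul, U.mul_star, U'.mul_star, one_kronecker_one]⟩
  map_one' := by
    apply Subtype.ext
    simp
  map_mul' v w := by
    apply Subtype.ext
    simp [mul_kronecker_mul]

@[simp] theorem Rep.kron_coe (U : Rep V κ) (U' : Rep V κ') (v : V) :
    (U.kron U' v : Matrix (κ × κ') (κ × κ') ℂ) =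
      kroneckerMap (· * ·) (U v : Matrix κ κ ℂ) (U' v : Matrix κ' κ' ℂ) := rfl

/-- the tensor product of two frames -/
@[simps] def Frame.kron {U : Rep V κ} {U' : Rep V κ'} (F : Frame E U ι) (F' : Frame E U' ι') :
    Frame E (U.kron U') (ι × ι') where
  R e := kroneckerMap (· * ·) (F.R e) (F'.R e)
  cont := by
    refine continuous_matrix fun i j => ?_
    simp only [kroneckerMap_apply]
    exact (F.cont.matrix_elem _ _).mul (F'.cont.matrix_elem _ _)
  isom e := by
    rw [conjTranspose_kronecker, ← mul_kronecker_mul, F.isom, F'.isom, one_kronecker_one]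
  equi v e := by
    rw [Rep.kron_coe, ← mul_kronecker_mul, F.equi, F'.equi]

theorem Frame.bun_kron {U : Rep V κ} {U' : Rep V κ'} (F : Frame E U ι) (F' : Frame E U' ι')
    {B : Type} [TopologicalSpace B] {q : E → B} (hq : IsQuo V q) :
    (F.kron F').bun hq = (F.bun hq).tensor (F'.bun hq) := by
  ext1
  funext b
  obtain ⟨e, rfl⟩ := hq.surj b
  rw [Bun.tensor_P, Frame.bun_P, Frame.bun_P, Frame.bun_P, Frame.kron_R, conjTranspose_kronecker,
    ← mul_kronecker_mul]

end kron

end Vale.Agent.P241.EUL
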