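import Vale.Agent.P241.H256.TIdeal
import Vale.Agent.P241.EUL.Compl

/-!
# P241, part BRIDGE: from the Euler class to the projection of the complement, modulo an ideal

`map_kap_mem` : if `w • e(W)` is in a `TIdeal` then so is `w` times the class of the projection
`W.compl.tot ⟶ ℂ^ι`.
-/

open CategoryTheory MonoidalCategory
open Vale.Agent.P251.G Vale.Agent.P251.G.LC Vale.Agent.P251.G.Bun Vale.Agent.P251.Q
open Vale.Agent.P251.Q.MultTheory Vale.Agent.P241.H256

universe v

namespace Vale.Agent.P241.EUL

variable {E : MultTheory.{v}} (o : Orientation E) (J : TIdeal E) {B : LC} [CompactSpace B]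
  {ι : Type} [Fintype ι] [DecidableEq ι] {n m : ℕ} [E.Good B] (W : Bun B ι) [E.Good W.tot]
  [E.Good W.compl.tot] (hW : W.IsRank n) (h : m + n = Fintype.card ι)
include hW h

/-- **(BR-B12)** -/
theorem map_kap_mem {w : E.A} (hw : w • o.e W hW ∈ J.I B) :
    E.map (kap W.compl) (w • o.lin ι) ∈ J.I W.compl.tot := by
  rw [MultTheory.map_smul, map_kap_compl o W hW h, ← phi_smul, phi_eq_act]
  exact J.act_mem_left _ hw _

theorem map_kap_mem' {w : E.A} (hw : w • o.e W hW ∈ J.I B) :
    w • E.map (kap W.compl) (o.lin ι) ∈ J.I W.compl.tot := by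
  rw [← MultTheory.map_smul]
  exact map_kap_mem o J W hW h hw

/-- the same after multiplication by an integer -/
theorem zsmul_map_kap_mem {w : E.A} {q : ℤ} (hw : q • w • o.e W hW ∈ J.I B) :
    q • w • E.map (kap W.compl) (o.lin ι) ∈ J.I W.compl.tot :=
  map_kap_mem' o (J.colon q) W hW h hw

end Vale.Agent.P241.EUL
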