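import Vale.Agent.P251.M.ThK
import Vale.Agent.P241.EUL.Compl

/-!
# P241, part BRIDGE: classes which are null on an object

`E = thK e R` the theory of a commutative monoid `R` of `T`, `Y : T`.

* `Kill e R Y X` : the subgroup of the `u : E.U X` such that all homogeneous components
  `a : F.S X ⟶ R ⊗ S^{2k}` of `u` satisfy `a ▷ Y = 0`;
* `kill_map`, `kill_cross_left`, `kill_cross_right`, `kill_act_left`, `kill_act_right`,
  `kill_smul_left`, `kill_smul_right`;
* `killIdeal e R Y B : Ideal (E.U B)` for compact `B`, `killA e R Y : Ideal E.A`;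
* `kill_kap` : if `w • e(W)` is null on `Y` then so is `w` times the class of
  `W.compl.tot ⟶ ℂ^ι`.
-/

set_option linter.style.haveILetI false
set_option linter.unusedSectionVars false

open CategoryTheory MonoidalCategory Limits Pretriangulated MonObj Matrix Topology

universe v u

noncomputable section

namespace Vale.Agent.P241.EUL

open Vale.Agent.P251.G Vale.Agent.P251.G.LC Vale.Agent.P251.G.Bun Vale.Agent.P251.Q
open Vale.Agent.P251.Q.MultTheory Vale.Agent.P251.M Vale.Agent.P251.I Vale.Agent.P251.T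

/-! ### Tensor products with a null morphism -/

section tensor

variable {T : Type u} [Category.{v} T] [Preadditive T] [MonoidalCategory T]
  [SymmetricCategory T] [MonoidalPreadditive T]

theorem tensor_null_right {X X' Z Z' Y : T} (a : X ⟶ X') (b : Z ⟶ Z') (h : b ▷ Y = 0) :
    (a ⊗ₘ b) ▷ Y = 0 := by
  have h1 : (X' ◁ b) ▷ Y = (α_ X' Z Y).hom ≫ X' ◁ (b ▷ Y) ≫ (α_ X' Z' Y).inv := by simp
  rw [tensorHom_def, comp_whiskerRight, h1, h, MonoidalPreadditive.whiskerLeft_zero, zero_comp,
    comp_zero, comp_zero]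

theorem tensor_null_left {X X' Z Z' Y : T} (a : X ⟶ X') (b : Z ⟶ Z') (h : a ▷ Y = 0) :
    (a ⊗ₘ b) ▷ Y = 0 := by
  have h1 : a ⊗ₘ b = (β_ X Z).hom ≫ (b ⊗ₘ a) ≫ (β_ Z' X').hom := by
    rw [← BraidedCategory.braiding_naturality_assoc, SymmetricCategory.symmetry, Category.comp_id]
  rw [h1, comp_whiskerRight, comp_whiskerRight, tensor_null_right b a h, zero_comp, comp_zero]

end tensor

variable {T : Type u} [Category.{v} T] [Preadditive T] [HasZeroObject T]
    [HasShift T ℤ] [∀ n : ℤ, (shiftFunctor T n).Additive] [Pretriangulated T]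
    [MonoidalCategory T] [SymmetricCategory T] [TensorTriangulated T]
  {S : EvenSpheres T} {F : SpaceFunctor T} (e : F.S.obj CCF ≅ S.L) (R : T) [MonObj R]
  [IsCommMonObj R] (Y : T)

/-! ### Null classes in the total group of an object of `T` -/

/-- The classes in the total group which are null on `Y`. -/
def KillT (X : T) : AddSubgroup ((RSys R S).Tot X) where
  carrier := {u | ∀ k, hq R S k X (u k) ▷ Y = 0}
  zero_mem' k := by
    rw [DirectSum.zero_apply, map_zero, MonoidalPreadditive.zero_whiskerRight]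
  add_mem' {u u'} h h' k := by
    rw [DirectSum.add_apply, map_add, MonoidalPreadditive.add_whiskerRight, h k, h' k, add_zero]
  neg_mem' {u} h k := by
    have h1 : (-u) k = -(u k) := by
      have := map_neg (DirectSum.component ℤ ℤ (fun k => (RSys R S).H k X) k) u
      exact this
    rw [h1, map_neg]
    have h2 := MonoidalPreadditive.add_whiskerRight (X := Y)
      (f := hq R S k X (u k)) (g := -hq R S k X (u k))
    rw [add_neg_cancel, MonoidalPreadditive.zero_whiskerRight, h k, zero_add] at h2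
    exact h2.symm

variable {R Y}

theorem of_mem_killT {X : T} {k : ℤ} {a : (RSys R S).H k X} (h : hq R S k X a ▷ Y = 0) :
    (RSys R S).tof X k a ∈ KillT (S := S) R Y X := by
  intro j
  by_cases hj : j = k
  · subst hj
    rw [DirectSum.of_eq_same]
    exact h
  · rw [DirectSum.of_eq_of_ne _ _ _ hj, map_zero, MonoidalPreadditive.zero_whiskerRight]

theorem killT_sum {X : T} {G : Type*} [AddCommGroup G] (f : (RSys R S).Tot X →+ G)
    (N : AddSubgroup G) {u : (RSys R S).Tot X}
    (h : ∀ k, f ((RSys R S).tof X k (u k)) ∈ N) : f u ∈ N := by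
  classical
  rw [← DirectSum.sum_support_of u, map_sum]
  exact N.sum_mem fun k _ => h k

theorem killT_tpull {X X' : T} (f : X ⟶ X') {u : (RSys R S).Tot X'}
    (h : u ∈ KillT (S := S) R Y X') : (RSys R S).tpull f u ∈ KillT (S := S) R Y X := by
  intro k
  rw [MSys.tpull_apply, hq_pull, comp_whiskerRight, h k, comp_zero]

theorem hq_xprod_null_left {k l q : ℤ} (hk : k + l = q) {X Z : T} (a : (RSys R S).H k X)
    (b : (RSys R S).H l Z) (h : hq R S k X a ▷ Y = 0) :
    hq R S q (X ⊗ Z) ((RSys R S).xprod hk a b) ▷ Y = 0 := by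
  rw [hq_xprod, comp_whiskerRight, tensor_null_left _ _ h, zero_comp]

theorem hq_xprod_null_right {k l q : ℤ} (hk : k + l = q) {X Z : T} (a : (RSys R S).H k X)
    (b : (RSys R S).H l Z) (h : hq R S l Z b ▷ Y = 0) :
    hq R S q (X ⊗ Z) ((RSys R S).xprod hk a b) ▷ Y = 0 := by
  rw [hq_xprod, comp_whiskerRight, tensor_null_right _ _ h, zero_comp]

theorem killT_tcross_left {X Z : T} {u : (RSys R S).Tot X} (h : u ∈ KillT (S := S) R Y X)
    (v : (RSys R S).Tot Z) : (RSys R S).tcross u v ∈ KillT (S := S) R Y (X ⊗ Z) := by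
  refine killT_sum ((RSys R S).tcross.flip v) _ fun k => ?_
  rw [AddMonoidHom.flip_apply]
  refine killT_sum ((RSys R S).tcross ((RSys R S).tof X k (u k))) _ fun l => ?_
  rw [MSys.tcross_of_of]
  exact of_mem_killT (hq_xprod_null_left rfl _ _ (h k))

theorem killT_tcross_right {X Z : T} (u : (RSys R S).Tot X) {v : (RSys R S).Tot Z}
    (h : v ∈ KillT (S := S) R Y Z) : (RSys R S).tcross u v ∈ KillT (S := S) R Y (X ⊗ Z) := by
  refine killT_sum ((RSys R S).tcross.flip v) _ fun k => ?_
  rw [AddMonoidHom.flip_apply]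
  refine killT_sum ((RSys R S).tcross ((RSys R S).tof X k (u k))) _ fun l => ?_
  rw [MSys.tcross_of_of]
  exact of_mem_killT (hq_xprod_null_right rfl _ _ (h l))

/-! ### Null classes of the theory -/

variable (R Y)

/-- A class as an element of the total group of the suspension spectrum. -/
def ev {X : LC} (h : FC X) : (thK e R).U X →+ (RSys R S).Tot (F.S.obj ⟨X, h⟩) :=
  uev (M := RSys R S) (F := F) h

theorem ev_injective {X : LC} (h : FC X) : Function.Injective (ev e R h) :=
  fun _ _ hu => uev_inj (M := RSys R S) (F := F) h hu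

theorem ev_map {X X' : LC} (h : FC X) (h' : FC X') (f : X ⟶ X') (u : (thK e R).U X') :
    ev e R h ((thK e R).map f u) = (RSys R S).tpull
      (F.S.map (FCat.hom (X := ⟨X, h⟩) (Y := ⟨X', h'⟩) f)) (ev e R h' u) :=
  uev_umap (M := RSys R S) (F := F) h h' f u

theorem ev_cross {X Z : LC} (hX : FC X) (hZ : FC Z) (h : FC (X ⊗ Z)) (u : (thK e R).U X)
    (v : (thK e R).U Z) : ev e R h ((thK e R).cross u v) = (RSys R S).tpull
      (Functor.OplaxMonoidal.δ F.S ⟨X, hX⟩ ⟨Z, hZ⟩)
      ((RSys R S).tcross (ev e R hX u) (ev e R hZ v)) :=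
  uev_ucross (M := RSys R S) (F := F) hX hZ h u v

theorem map_of_not_fc {X X' : LC} (h' : ¬FC X') (f : X ⟶ X') (u : (thK e R).U X') :
    (thK e R).map f u = 0 := by
  have h1 : (thK e R).map f = 0 := dif_neg h'
  rw [h1]
  rfl

theorem cross_of_not_fc_left {X Z : LC} (hX : ¬FC X) (u : (thK e R).U X) (v : (thK e R).U Z) :
    (thK e R).cross u v = 0 := by
  have h1 : (thK e R).cross (X := X) (Y := Z) = 0 := dif_neg hX
  rw [h1]
  rfl

theorem cross_of_not_fc_right {X Z : LC} (hZ : ¬FC Z) (u : (thK e R).U X) (v : (thK e R).U Z) :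
    (thK e R).cross u v = 0 := by
  by_cases hX : FC X
  · have h1 : (thK e R).cross (X := X) (Y := Z) = 0 := (dif_pos hX).trans (dif_neg hZ)
    rw [h1]
    rfl
  · exact cross_of_not_fc_left e R hX u v

/-- The classes which are null on `Y`. -/
def Kill (X : LC) : AddSubgroup ((thK e R).U X) :=
  ⨅ h : FC X, (KillT (S := S) R Y (F.S.obj ⟨X, h⟩)).comap (ev e R h)

variable {R Y}

theorem mem_kill' {X : LC} {u : (thK e R).U X} :
    u ∈ Kill e R Y X ↔ ∀ h : FC X, ev e R h u ∈ KillT (S := S) R Y (F.S.obj ⟨X, h⟩) := by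
  rw [Kill, AddSubgroup.mem_iInf]
  rfl

theorem mem_kill {X : LC} (h : FC X) {u : (thK e R).U X} :
    u ∈ Kill e R Y X ↔ ev e R h u ∈ KillT (S := S) R Y (F.S.obj ⟨X, h⟩) := by
  rw [mem_kill']
  exact ⟨fun hu => hu h, fun hu _ => hu⟩

theorem kill_map {X X' : LC} (f : X ⟶ X') {u : (thK e R).U X'} (h : u ∈ Kill e R Y X') :
    (thK e R).map f u ∈ Kill e R Y X := by
  by_cases hX' : FC X'
  · rw [mem_kill'] at h ⊢
    intro hX
    rw [ev_map e R hX hX']
    exact killT_tpull _ (h hX')
  · rw [map_of_not_fc e R hX']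
    exact zero_mem _

theorem kill_cross_left {X Z : LC} {u : (thK e R).U X} (h : u ∈ Kill e R Y X)
    (v : (thK e R).U Z) : (thK e R).cross u v ∈ Kill e R Y (X ⊗ Z) := by
  by_cases hX : FC X
  · by_cases hZ : FC Z
    · rw [mem_kill'] at h ⊢
      intro hXZ
      rw [ev_cross e R hX hZ]
      exact killT_tpull _ (killT_tcross_left (h hX) _)
    · rw [cross_of_not_fc_right e R hZ]
      exact zero_mem _
  · rw [cross_of_not_fc_left e R hX]
    exact zero_mem _

theorem kill_cross_right {X Z : LC} (u : (thK e R).U X) {v : (thK e R).U Z}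
    (h : v ∈ Kill e R Y Z) : (thK e R).cross u v ∈ Kill e R Y (X ⊗ Z) := by
  by_cases hX : FC X
  · by_cases hZ : FC Z
    · rw [mem_kill'] at h ⊢
      intro hXZ
      rw [ev_cross e R hX hZ]
      exact killT_tpull _ (killT_tcross_right _ (h hZ))
    · rw [cross_of_not_fc_right e R hZ]
      exact zero_mem _
  · rw [cross_of_not_fc_left e R hX]
    exact zero_mem _

theorem kill_act_left {X Z : LC} (f : C(X, Z)) {x : (thK e R).U Z} (h : x ∈ Kill e R Y Z)
    (z : (thK e R).U X) : (thK e R).act f x z ∈ Kill e R Y X := by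
  rw [act_apply]
  exact kill_map e _ (kill_cross_left e h z)

theorem kill_act_right {X Z : LC} (f : C(X, Z)) (x : (thK e R).U Z) {z : (thK e R).U X}
    (h : z ∈ Kill e R Y X) : (thK e R).act f x z ∈ Kill e R Y X := by
  rw [act_apply]
  exact kill_map e _ (kill_cross_right e x h)

theorem kill_smul_right {X : LC} (a : (thK e R).A) {x : (thK e R).U X}
    (h : x ∈ Kill e R Y X) : a • x ∈ Kill e R Y X := by
  rw [smul_def]
  exact kill_map e _ (kill_cross_right e _ h)

theorem kill_smul_left {X : LC} {a : (thK e R).A} (h : (thK e R).ofA a ∈ Kill e R Y (𝟙_ LC))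
    (x : (thK e R).U X) : a • x ∈ Kill e R Y X := by
  rw [smul_def]
  exact kill_map e _ (kill_cross_left e h x)

variable (R Y)

/-- The ideal of the classes over a compact space which are null on `Y`. -/
def killIdeal (B : LC) [(thK e R).Good B] [CompactSpace B] : Ideal ((thK e R).U B) where
  carrier := {x | x ∈ Kill e R Y B}
  add_mem' := (Kill e R Y B).add_mem
  zero_mem' := (Kill e R Y B).zero_mem
  smul_mem' c x hx := by
    rw [smul_eq_mul, MultTheory.mul_def]
    exact kill_act_right e _ _ hx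

/-- The ideal of the coefficient ring of the elements which are null on `Y`. -/
def killA : Ideal (thK e R).A where
  carrier := {a | (thK e R).ofA a ∈ Kill e R Y (𝟙_ LC)}
  add_mem' := (Kill e R Y (𝟙_ LC)).add_mem
  zero_mem' := (Kill e R Y (𝟙_ LC)).zero_mem
  smul_mem' c x hx := by
    rw [smul_eq_mul]
    change (thK e R).ofA (c * x) ∈ _
    rw [MultTheory.ofA_mul]
    exact kill_smul_right e _ hx

variable {R Y}

theorem mem_killIdeal {B : LC} [(thK e R).Good B] [CompactSpace B] {x : (thK e R).U B} :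
    x ∈ killIdeal e R Y B ↔ x ∈ Kill e R Y B := Iff.rfl

theorem mem_killA {a : (thK e R).A} :
    a ∈ killA e R Y ↔ (thK e R).ofA a ∈ Kill e R Y (𝟙_ LC) := Iff.rfl

theorem algebraMap_mem_killIdeal {B : LC} [(thK e R).Good B] [CompactSpace B] {a : (thK e R).A}
    (h : a ∈ killA e R Y) : algebraMap _ _ a ∈ killIdeal e R Y B := by
  rw [Algebra.algebraMap_eq_smul_one]
  exact kill_smul_left e h _

/-! ### The complement of a bundle -/

/-- If `w • e(W)` is null on `Y` then so is `w` times the class of the projection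
`W.compl.tot ⟶ ℂ^ι`. -/
theorem kill_kap (o : Orientation (thK e R)) {B : LC} [CompactSpace B] {ι : Type} [Fintype ι]
    [DecidableEq ι] {n m : ℕ} [(thK e R).Good B] (W : Bun B ι) [(thK e R).Good W.tot]
    [(thK e R).Good W.compl.tot] (hW : W.IsRank n) (h : m + n = Fintype.card ι)
    {w : (thK e R).A} (hw : w • o.e W hW ∈ Kill e R Y B) :
    (thK e R).map (kap W.compl) (w • o.lin ι) ∈ Kill e R Y W.compl.tot := by
  rw [MultTheory.map_smul, map_kap_compl o W hW h, ← phi_smul, phi_eq_act]
  exact kill_act_left e _ hw _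

end Vale.Agent.P241.EUL
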