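import Vale.Agent.P241.H256.Kill
import Vale.Agent.P241.H796.Graded
import Vale.Agent.P241.R.TSide
import Vale.Agent.P251.M.MUFinal

/-!
# P241, part EUL: the output of block NIL in the coefficient ring of the theory of `MU`

`kill R e Y` (H256) is the ideal of the classes of the theory `thK e R` which are killed by `Y`.

* `zsmul_vv_mem_coef` : if `x : S^{2k} ⟶ MU` is `m v_i^N` and `x ▷ Y = 0`, then `m v_i^N`
  (`v_i` of the law of the orientation) is in `(kill R e Y).coef`;
* `exists_coef_of_nilMU`, `exists_coef_of_isVT` : one integer `m` prime to `p` and one exponent `L`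
  with `m v_i^L ∈ (kill R e Y).coef` for all `i < h`, from `NilMU`, or from `IsVT`.
-/

open CategoryTheory MonoidalCategory Limits Pretriangulated MonObj
open Vale.Agent.P251.G Vale.Agent.P251.G.LC Vale.Agent.P251.I Vale.Agent.P251.T
open Vale.Agent.P251.M Vale.Agent.P251.S Vale.Agent.P251.F Vale.Agent.P251.M.EvenSpheres
open Vale.Agent.P241.H256 Vale.Agent.P241.H796 Vale.Agent.P093.PLoc

universe v u

set_option linter.unusedSectionVars false

noncomputable section

namespace Vale.Agent.P241.EUL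

variable {T : Type u} [Category.{v} T] [Preadditive T] [HasZeroObject T]
    [HasShift T ℤ] [∀ n : ℤ, (shiftFunctor T n).Additive] [Pretriangulated T] [IsTriangulated T]
    [MonoidalCategory T] [SymmetricCategory T] [TensorTriangulated T] [MonoidalClosed T]
    [HasCoproducts.{0} T] [HasProducts.{0} T] [StableCat T]

variable {F : SpaceFunctor T} {e : F.S.obj CCF ≅ (stdEven T).L}

section gen

variable (R : T) [MonObj R] [IsCommMonObj R]

theorem HRing_of_zsmul (R : T) (k m : ℤ) (x : (stdEven T).S k ⟶ R) :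
    HRing.of (stdEven T) R k (m • x) = m • HRing.of (stdEven T) R k x :=
  map_zsmul (DirectSum.of ((stdEven T).Gr R) k) m x

/-- an element of the coefficient ring is killed by `Y` if the corresponding map is -/
theorem mem_coef_kill {Y : T} {k : ℤ} {x : (stdEven T).S k ⟶ R} (h0 : x ▷ Y = 0)
    {a : (thK e R).A} (ha : coefK e R a = HRing.of (stdEven T) R k x) :
    a ∈ (kill R e Y).coef := by
  have h1 : a = coefOf (cofTriangles F) (isSusp_lineCls e (SeqMonoid.const R)) x :=
    (coefK_bijective e R).1 (ha.trans (coeffHom_coefOf _).symm)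
  rw [h1]
  exact coefOf_mem_kill e h0

end gen

variable (M : MUMon F (stdEven T) e) (b : MUBasis M.V)

theorem coefK_vv_pow (p i N : ℕ) (m : ℤ) :
    coefK e M.R (m • vv p i M.ori.law ^ N) = m • vv p i (M.data b).law ^ N := by
  rw [map_zsmul, map_pow]
  exact congrArg (fun z : HRing (stdEven T) M.R => m • z ^ N)
    ((vv_map p i (coefK e M.R) M.ori.law).symm.trans (congrArg (vv p i) (M.data_law b).symm))

/-- `m v_i^N` is in the ideal of coefficients killed by `Y` -/
theorem zsmul_vv_mem_coef {Y : T} {p i N : ℕ} {m k : ℤ} {x : (stdEven T).S k ⟶ (M.data b).R}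
    (hx : HRing.of (stdEven T) (M.data b).R k x = m • vv p i (M.data b).law ^ N)
    (h0 : x ▷ Y = 0) : m • vv p i M.ori.law ^ N ∈ (kill M.R e Y).coef :=
  mem_coef_kill M.R (x := x) h0 ((coefK_vv_pow M b p i N m).trans hx.symm)

theorem NilMU_mem_coef {Y : T} {p i : ℕ} (h : NilMU (M.data b) p Y i) :
    ∃ (m : ℤ) (L : ℕ), m ∈ cop p ∧ m • vv p i M.ori.law ^ L ∈ (kill M.R e Y).coef := by
  obtain ⟨m, L, x, hm, hx, h0⟩ := h
  refine ⟨m, L, hm, zsmul_vv_mem_coef M b (x := m • x) (k := L * ((p ^ i : ℤ) - 1)) ?_ ?_⟩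
  · exact (HRing_of_zsmul _ _ m x).trans (congrArg (m • ·) hx)
  · rw [Vale.Agent.P093.PLoc.whiskerRight_zsmul]
    exact h0

/-- One integer and one exponent, from block NIL. -/
theorem exists_coef_of_nilMU {Y : T} {p : ℕ} (hp : p.Prime) {h : ℕ}
    (hN : ∀ i < h, NilMU (M.data b) p Y i) :
    ∃ (m : ℤ) (L : ℕ), ¬ (p : ℤ) ∣ m ∧
      ∀ i < h, m • vv p i M.ori.law ^ L ∈ (kill M.R e Y).coef := by
  refine TIdeal.exists_uniform (kill M.R e Y) hp (fun i => vv p i M.ori.law) fun i hi => ?_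
  obtain ⟨m, L, hm, h1⟩ := NilMU_mem_coef M b (hN i hi)
  exact ⟨m, L, (mem_cop_iff_not_dvd hp).1 hm, h1⟩

/-- One integer and one exponent, from the statement `R.NilStmt` of block NIL. -/
theorem exists_coef_of_isVT {Y : T} {p : ℕ} (hp : p.Prime) {h : ℕ}
    (hN : ∀ i < h, ∃ (k : ℤ) (x : (stdEven T).S k ⟶ (M.data b).R),
      (∃ m N : ℕ, ¬ p ∣ m ∧ HRing.of (stdEven T) (M.data b).R k x =
        (m : HRing (stdEven T) (M.data b).R) * (vv p i (M.data b).law) ^ N) ∧ x ▷ Y = 0) :
    ∃ (m : ℤ) (L : ℕ), ¬ (p : ℤ) ∣ m ∧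
      ∀ i < h, m • vv p i M.ori.law ^ L ∈ (kill M.R e Y).coef := by
  refine TIdeal.exists_uniform (kill M.R e Y) hp (fun i => vv p i M.ori.law) fun i hi => ?_
  obtain ⟨k, x, ⟨m, N, hm, hx⟩, h0⟩ := hN i hi
  refine ⟨m, N, by exact_mod_cast hm, zsmul_vv_mem_coef M b (x := x) (k := k) ?_ h0⟩
  rw [hx, ← nsmul_eq_mul, natCast_zsmul]

open Vale.Agent.P251.St Vale.Agent.P251.St.SHCat Vale.Agent.P241.St Vale.Agent.P241.Final
  Vale.Agent.P241.R in
/-- The output of block NIL (`R.NilStmt`) in the coefficient ring of the theory of `MU`. -/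
theorem NilStmt_coef {T : SHCat} {S : Susp T} {p : ℕ} (hp : p.Prime) (X : Ctx S)
    (hN : NilStmt S p X) (K : ℕ → RingA T) (hK : ∀ i, IsMoravaK S p i (K i)) (Y : Space)
    (hY : Vale.Agent.P251.St.FC Y) (h : ℕ)
    (hA : ∀ j < h, Vale.Agent.P251.St.Acyclic (K j).obj (S.obj Y)) :
    ∃ (m : ℤ) (L : ℕ), ¬ (p : ℤ) ∣ m ∧
      ∀ i < h, m • vv p i X.o.law ^ L ∈ (kill X.M.R X.e (S.obj Y)).coef :=
  exists_coef_of_isVT X.M X.b hp fun i hi => hN K hK Y hY h hA i hi

end Vale.Agent.P241.EUL
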