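import Vale.Agent.P241.H46.Roots2
import Vale.Agent.P251.F.Height
import Vale.Agent.P251.Q.FGL

/-!
# P241, block EUL-7: the `p`-series modulo `I_h` and the products of Euler classes

`F` a commutative formal group law over `A`, `S` an `A`-algebra, `x a ∈ S` (`a` in a finite
abelian group `ι`) nilpotent elements with `x a - x b = unit * x (a - b)` and `[p](x a) = 0`.
For `h ≤ t`, `p ^ (t - h) < #ι` and every `L` there is `M` with
`v_t ^ M * (∏_{a ≠ 0} x a) ^ K ∈ (v_0 ^ L, …, v_{h-1} ^ L)`, `K = eulExp p h #ι L`; the exponent `K`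
does not depend on `x` and `S`.

* `span_pow_mem` : `(v_0, …, v_{h-1}) ^ (h L + 1) ≤ (v_0 ^ L, …, v_{h-1} ^ L)`;
* `pIdeal_pow`, `pIdeal_sum` : the statement above (ideal form, sum form);
* `pIdeal_nev` : the same with `[p](x a) = 0` in the form `nev1`.
-/



namespace Vale.Agent.P241.EUL

open Vale.Agent.P241.H46 Vale.Agent.P251.F Vale.Agent.P251.Q Vale.Agent.P217

section ideal

variable {S : Type*} [CommRing S]

/-- `(y_0, …, y_{h-1}) ^ (h L + 1) ≤ (y_0 ^ L, …, y_{h-1} ^ L)` -/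
theorem span_pow_le (y : ℕ → S) (L h : ℕ) :
    Ideal.span {z | ∃ i < h, z = y i} ^ (h * L + 1) ≤ Ideal.span {z | ∃ i < h, z = y i ^ L} := by
  induction h with
  | zero =>
    have : {z : S | ∃ i < 0, z = y i} = ∅ := by
      ext z
      simp
    rw [this, Ideal.span_empty, zero_mul, zero_add, pow_one]
    exact bot_le
  | succ h ih =>
    have e1 : {z : S | ∃ i < h + 1, z = y i} = {z | ∃ i < h, z = y i} ∪ {y h} := by
      ext z
      constructor
      · rintro ⟨i, hi, rfl⟩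
        rcases Nat.lt_succ_iff_lt_or_eq.1 hi with h' | rfl
        · exact Or.inl ⟨i, h', rfl⟩
        · exact Or.inr rfl
      · rintro (⟨i, hi, rfl⟩ | rfl)
        · exact ⟨i, Nat.lt_succ_of_lt hi, rfl⟩
        · exact ⟨h, Nat.lt_succ_self h, rfl⟩
    rw [e1, Ideal.span_union, show (h + 1) * L + 1 = (h * L + 1) + L by ring]
    refine Ideal.sup_pow_add_le_pow_sup_pow.trans (sup_le (ih.trans (Ideal.span_mono ?_)) ?_)
    · rintro z ⟨i, hi, rfl⟩
      exact ⟨i, Nat.lt_succ_of_lt hi, rfl⟩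
    · rw [Ideal.span_singleton_pow, Ideal.span_le, Set.singleton_subset_iff]
      exact Ideal.subset_span ⟨h, Nat.lt_succ_self h, rfl⟩

/-- elements of `(y_0, …, y_{h-1})` as sums -/
theorem mem_span_iff_sum (y : ℕ → S) (h : ℕ) {z : S} :
    z ∈ Ideal.span {z | ∃ i < h, z = y i} ↔ ∃ c : ℕ → S, z = ∑ i ∈ Finset.range h, y i * c i := by
  constructor
  · intro hz
    induction hz using Submodule.span_induction with
    | mem z hz =>
      obtain ⟨i, hi, rfl⟩ := hz
      refine ⟨fun j => if j = i then 1 else 0, ?_⟩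
      rw [Finset.sum_eq_single i]
      · simp
      · intro j _ hj
        simp [hj]
      · intro hi'
        exact absurd (Finset.mem_range.2 hi) hi'
    | zero => exact ⟨0, by simp⟩
    | add z w _ _ hz hw =>
      obtain ⟨c, rfl⟩ := hz
      obtain ⟨d, rfl⟩ := hw
      exact ⟨fun i => c i + d i, by simp only [mul_add, Finset.sum_add_distrib]⟩
    | smul a z _ hz =>
      obtain ⟨c, rfl⟩ := hz
      refine ⟨fun i => a * c i, ?_⟩
      rw [smul_eq_mul, Finset.mul_sum]
      exact Finset.sum_congr rfl fun i _ => by ring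
  · rintro ⟨c, rfl⟩
    exact Ideal.sum_mem _ fun i hi => Ideal.mul_mem_right _ _
      (Ideal.subset_span ⟨i, Finset.mem_range.1 hi, rfl⟩)

end ideal

/-- the exponent of the Euler classes; it depends only on `p`, `h`, the number `N` of characters
and `L` -/
def eulExp (p h N L : ℕ) : ℕ := p ^ h * N.choose 2 * (h * L + 1)

section main

variable {A S : Type*} [CommRing A] [CommRing S] [Algebra A S]

theorem pIdeal_pow {ι : Type*} [AddCommGroup ι] [Fintype ι] [DecidableEq ι] (p : ℕ)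
    [Fact p.Prime] (F : FormalGroup A) [F.IsComm] (x : ι → S) (hx : ∀ a, IsNilpotent (x a))
    (hsub : ∀ a b, ∃ u : Sˣ, x a - x b = u * x (a - b))
    (hroot : ∀ a, ∃ L₀, ∀ L ≥ L₀, ∑ n ∈ Finset.range L,
      algebraMap A S (PowerSeries.coeff n (multSeries F p)) * x a ^ n = 0)
    (h t : ℕ) (hht : h ≤ t) (hlt : p ^ (t - h) < Fintype.card ι) (L : ℕ) :
    ∃ M, algebraMap A S (vF p F t) ^ M *
      (∏ a ∈ Finset.univ.erase 0, x a) ^ eulExp p h (Fintype.card ι) L ∈
        Ideal.span {z | ∃ i < h, z = algebraMap A S (vF p F i) ^ L} := by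
  have hI : (IF p F h).map (algebraMap A S) =
      Ideal.span {z | ∃ i < h, z = algebraMap A S (vF p F i)} := by
    rw [IF, Ideal.map_span]
    congr 1
    ext z
    constructor
    · rintro ⟨y, ⟨i, hi, rfl⟩, rfl⟩
      exact ⟨i, hi, rfl⟩
    · rintro ⟨i, hi, rfl⟩
      exact ⟨_, ⟨i, hi, rfl⟩, rfl⟩
  obtain ⟨M, hM⟩ := roots_mod (Fact.out : p.Prime) x hx hsub
    (fun n => algebraMap A S (PowerSeries.coeff n (multSeries F p))) hroot
    ((IF p F h).map (algebraMap A S)) h (fun hh => by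
      have := Ideal.mem_map_of_mem (algebraMap A S) (vF_mem p F hh)
      rwa [vF_zero, map_natCast] at this)
    (fun n hn => Ideal.mem_map_of_mem (algebraMap A S) (coeff_multSeries_mem p F h n hn))
    (p ^ (t - h)) hlt
  rw [← pow_add, Nat.add_sub_cancel' hht] at hM
  refine ⟨M * (h * L + 1), ?_⟩
  have h1 := span_pow_le (fun i => algebraMap A S (vF p F i)) L h
    (Ideal.pow_mem_pow (hI ▸ hM) (h * L + 1))
  rw [mul_pow, ← pow_mul, ← pow_mul] at h1
  exact h1

/-- sum form -/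
theorem pIdeal_sum {ι : Type*} [AddCommGroup ι] [Fintype ι] [DecidableEq ι] (p : ℕ)
    [Fact p.Prime] (F : FormalGroup A) [F.IsComm] (x : ι → S) (hx : ∀ a, IsNilpotent (x a))
    (hsub : ∀ a b, ∃ u : Sˣ, x a - x b = u * x (a - b))
    (hroot : ∀ a, ∃ L₀, ∀ L ≥ L₀, ∑ n ∈ Finset.range L,
      algebraMap A S (PowerSeries.coeff n (multSeries F p)) * x a ^ n = 0)
    (h t : ℕ) (hht : h ≤ t) (hlt : p ^ (t - h) < Fintype.card ι) (L : ℕ) :
    ∃ (M : ℕ) (c : ℕ → S), vF p F t ^ M •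
      (∏ a ∈ Finset.univ.erase 0, x a) ^ eulExp p h (Fintype.card ι) L =
        ∑ i ∈ Finset.range h, vF p F i ^ L • c i := by
  obtain ⟨M, hM⟩ := pIdeal_pow p F x hx hsub hroot h t hht hlt L
  obtain ⟨c, hc⟩ := (mem_span_iff_sum (fun i => algebraMap A S (vF p F i) ^ L) h).1 hM
  refine ⟨M, c, ?_⟩
  rw [Algebra.smul_def, map_pow, hc]
  exact Finset.sum_congr rfl fun i _ => by rw [Algebra.smul_def, map_pow]

/-- `[p](x) = 0` in the form of `P251/Q` -/
theorem root_of_nev (F : FormalGroup A) (p : ℕ) {x : S} (hx : IsNilpotent x)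
    (h : nev1 x (multSeries F p) = 0) : ∃ L₀, ∀ L ≥ L₀, ∑ n ∈ Finset.range L,
      algebraMap A S (PowerSeries.coeff n (multSeries F p)) * x ^ n = 0 := by
  obtain ⟨n, hn⟩ := hx
  refine ⟨n, fun L hL => ?_⟩
  have h1 := nev1_eq_sum (pow_eq_zero_of_le hL hn) (multSeries F p)
  rw [h] at h1
  rw [h1]
  exact Finset.sum_congr rfl fun i _ => (Algebra.smul_def _ _).symm

theorem pIdeal_nev {ι : Type*} [AddCommGroup ι] [Fintype ι] [DecidableEq ι] (p : ℕ)
    [Fact p.Prime] (F : FormalGroup A) [F.IsComm] (x : ι → S) (hx : ∀ a, IsNilpotent (x a))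
    (hsub : ∀ a b, ∃ u : Sˣ, x a - x b = u * x (a - b))
    (hroot : ∀ a, nev1 (x a) (multSeries F p) = 0)
    (h t : ℕ) (hht : h ≤ t) (hlt : p ^ (t - h) < Fintype.card ι) (L : ℕ) :
    ∃ (M : ℕ) (c : ℕ → S), vF p F t ^ M •
      (∏ a ∈ Finset.univ.erase 0, x a) ^ eulExp p h (Fintype.card ι) L =
        ∑ i ∈ Finset.range h, vF p F i ^ L • c i :=
  pIdeal_sum p F x hx hsub (fun a => root_of_nev F p (hx a) (hroot a)) h t hht hlt L

end main

end Vale.Agent.P241.EUL
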