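import Vale.Agent.P241.H46.LawRoots
import Vale.Agent.P241.EUL.PIdeal

/-!
# P241, block EUL-7, bundle form

For line bundles `f a` over a compact base, `a` in a finite abelian group `ι` killed by `p`, with
`f (a + b) ≅ f a ⊗ f b`, `h ≤ t`, `p ^ (t - h) < #ι` and every `L`:
`v_t ^ M • (∏_{a ≠ 0} e(f a)) ^ K = ∑_{i < h} v_i ^ L • c i`, with `K = eulExp p h #ι L` independent of
the base.
-/

namespace Vale.Agent.P241.EUL

open Vale.Agent.P241.H46 Vale.Agent.P251.F Vale.Agent.P251.Q Vale.Agent.P251.G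
open CategoryTheory MonoidalCategory MultTheory

section law

variable {A S : Type*} [CommRing A] [CommRing S] [Algebra A S] (F : Law A)

theorem map_Ih_eq (p h : ℕ) : (Ih p h F).map (algebraMap A S) =
    Ideal.span {z | ∃ i < h, z = algebraMap A S (vv p i F)} := by
  rw [Ih, Ideal.map_span]
  congr 1
  ext z
  constructor
  · rintro ⟨y, ⟨i, hi, rfl⟩, rfl⟩
    exact ⟨i, hi, rfl⟩
  · rintro ⟨i, hi, rfl⟩
    exact ⟨_, ⟨i, hi, rfl⟩, rfl⟩

/-- from `v_t ^ M P ^ e ∈ I_h` to powers of the `v_i` -/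
theorem sum_of_mem_Ih {p h t M e : ℕ} {P : S}
    (hM : algebraMap A S (vv p t F) ^ M * P ^ e ∈ (Ih p h F).map (algebraMap A S)) (L : ℕ) :
    ∃ c : ℕ → S, vv p t F ^ (M * (h * L + 1)) • P ^ (e * (h * L + 1)) =
      ∑ i ∈ Finset.range h, vv p i F ^ L • c i := by
  rw [map_Ih_eq] at hM
  have h1 := span_pow_le (fun i => algebraMap A S (vv p i F)) L h
    (Ideal.pow_mem_pow hM (h * L + 1))
  obtain ⟨c, hc⟩ := (mem_span_iff_sum (fun i => algebraMap A S (vv p i F) ^ L) h).1 h1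
  refine ⟨c, ?_⟩
  rw [Algebra.smul_def, map_pow, pow_mul, pow_mul, ← mul_pow, hc]
  exact Finset.sum_congr rfl fun i _ => by rw [Algebra.smul_def, map_pow]

end law

universe v

variable {E : MultTheory.{v}} (o : Orientation E)
variable {X : LC} [E.Good X] [CompactSpace X]

/-- **EUL-7.** -/
theorem lines_sum {ι : Type*} [AddCommGroup ι] [Fintype ι] [DecidableEq ι] {J : ι → Type}
    [∀ a, Fintype (J a)] (f : ∀ a, C(X, CP (J a)))
    (hf : ∀ a b, o.lc (f (a + b)) = o.lc (tens (f a) (f b)))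
    {p : ℕ} [hp : Fact p.Prime] (hι : ∀ a : ι, p • a = 0) {h t : ℕ} (hht : h ≤ t)
    (ht : p ^ (t - h) < Fintype.card ι) (L : ℕ) :
    ∃ (M : ℕ) (c : ℕ → E.U X), vv p t o.law ^ M •
      (∏ a ∈ Finset.univ.erase 0, o.lc (f a)) ^ eulExp p h (Fintype.card ι) L =
        ∑ i ∈ Finset.range h, vv p i o.law ^ L • c i := by
  obtain ⟨M, hM⟩ := roots_lines o f hf hι hht ht
  exact ⟨_, sum_of_mem_Ih o.law hM L⟩

/-- homogeneous form: the left side is homogeneous of degree `k` and the `c i` can be chosen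
homogeneous of the complementary degrees -/
theorem exists_homog {R : Type*} [CommRing R] {h : ℕ} {z : R} {y c : ℕ → R}
    (π : ℤ → R →+ R) (k : ℤ) (d : ℕ → ℤ) (hz : π k z = z)
    (hy : ∀ i < h, ∀ (j : ℤ) (x : R), π (j + d i) (y i * x) = y i * π j x)
    (hc : z = ∑ i ∈ Finset.range h, y i * c i) :
    z = ∑ i ∈ Finset.range h, y i * π (k - d i) (c i) := by
  rw [← hz]
  conv_lhs => rw [hc]
  rw [map_sum]
  refine Finset.sum_congr rfl fun i hi => ?_
  have := hy i (Finset.mem_range.1 hi) (k - d i) (c i)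
  rwa [sub_add_cancel] at this

end Vale.Agent.P241.EUL
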