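import Vale.Agent.P241.H46.EulMain
import Vale.Agent.P241.H872.FrameLines
import Vale.Agent.P241.H71.RhoP

/-!
# P241, part EUL: noncommutative `p`-groups (T3) and the final form of EUL

* `t3Prop` : for a noncommutative `p`-group `V` there is a finite family of nontrivial characters,
  independent of `m`, whose sum has Euler class `0` over all `B_m = E_m/V`;
* `eul` : the final statement of EUL, `H46.eul_main` without hypothesis.
-/

open Matrix

universe v

noncomputable section

namespace Vale.Agent.P241.EUL

open Vale.Agent.P251.G Vale.Agent.P251.G.LC Vale.Agent.P251.Q Vale.Agent.P251.F Vale.Agent.P241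
open Vale.Agent.P241.H46

theorem t3Prop (p : ℕ) [hp : Fact p.Prime] {E : MultTheory.{v}} (o : Orientation E) :
    T3Prop p o := by
  classical
  intro V _ _ hV hna
  obtain ⟨m, ρ, X, hm, hmX, hT⟩ := H71.exists_rho_rootsOfUnity p hp.out V hV hna
  have hfin : Finite (V →* rootsOfUnity p ℂ) := H122.finite_char V
  let _ : Fintype X := Fintype.ofFinite X
  have hcard : Fintype.card (Additive X) = Nat.card X := by
    rw [← Nat.card_eq_fintype_card]
    exact Nat.card_congr Additive.toMul
  set K := (Fintype.card (Additive X)).choose 2 with hK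
  refine ⟨Fin K × {a : Additive X // a ≠ 0}, inferInstance, inferInstance,
    fun i => ((Additive.toMul i.2.1 : X) : V →* rootsOfUnity p ℂ), fun i hi => ?_, fun n => ?_⟩
  · refine i.2.2 (Additive.toMul.injective ?_)
    exact Subtype.ext hi
  · have h1 := eulEM_diagRep_pow o
      (fun a : {a : Additive X // a ≠ 0} => ((Additive.toMul a.1 : X) : V →* rootsOfUnity p ℂ)) K n
    refine h1.trans ?_
    have h2 := H872.nonab o (B := LC.of (BM V n)) (isQuo (V := V) (m := n)) (ι := Additive X)
      (c := fun a => chRep ((Additive.toMul a : X) : V →* rootsOfUnity p ℂ))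
      (fun a => frameEM (chRep ((Additive.toMul a : X) : V →* rootsOfUnity p ℂ)) n)
      (fun a b v => by
        rw [chRep_num, chRep_num, chRep_num]
        rfl) (U := ρ) (frameEM ρ n) (by rw [Fintype.card_fin]; exact hm)
      (by rw [Fintype.card_fin, hcard]; exact hmX)
      (fun a => by
        obtain ⟨P, hP⟩ := hT _ (Additive.toMul a).2
        have h3 : ((P : Matrix (Fin m) (Fin m) ℂ))ᴴ * (P : Matrix (Fin m) (Fin m) ℂ) = 1 :=
          (Matrix.mem_unitaryGroup_iff').1 P.2
        refine ⟨P, h3, fun v => ?_⟩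
        have h4 := congrArg (· * (P : Matrix (Fin m) (Fin m) ℂ)) (hP v)
        have h5 : ((P⁻¹ : unitaryGroup (Fin m) ℂ) : Matrix (Fin m) (Fin m) ℂ) =
          (P : Matrix (Fin m) (Fin m) ℂ)ᴴ := rfl
        simp only [Matrix.mul_assoc, h5, h3, Matrix.mul_one, Matrix.smul_mul] at h4
        rw [chRep_num]
        exact h4)
    rw [← hK] at h2
    rw [← h2]
    refine congrArg (· ^ K) ?_
    have h6 := Finset.prod_subtype (p := fun a : Additive X => a ≠ 0)
      (F := inferInstance)
      (Finset.univ.erase (0 : Additive X)) (fun a => by simp)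
      (fun a => o.lc (lineEM ((Additive.toMul a : X) : V →* rootsOfUnity p ℂ) n))
    refine (h6.symm.trans ?_ : _)
    refine Finset.prod_congr rfl fun a _ => ?_
    exact (H872.xc_eq o (B := LC.of (BM V n)) (isQuo (V := V) (m := n))
      (fun a : Additive X =>
        frameEM (chRep ((Additive.toMul a : X) : V →* rootsOfUnity p ℂ)) n) a).symm

/-- **EUL.** For a `p`-group `V ≠ 1`, `t` and `L` there is a finite family of nontrivial characters
of order `p` with sum `U` such that for every `m` there are `M` and classes `c_i` over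
`B_m = E_m/V` with `v_t ^ M • e(U) = ∑_{i < h} v_i ^ L • c_i`, `h = htV V t`. -/
theorem eul {p : ℕ} [hp : Fact p.Prime] {E : MultTheory.{v}} (o : Orientation E)
    (V : Type) [Group V] [Fintype V] (hV : IsPGroup p V) [Nontrivial V] (t L : ℕ) :
    ∃ (κ : Type) (_ : Fintype κ) (_ : DecidableEq κ) (χ : κ → (V →* rootsOfUnity p ℂ)),
      (∀ k, χ k ≠ 1) ∧ ∀ m : ℕ, ∃ (M : ℕ) (c : ℕ → E.U (LC.of (BM V m))),
        vv p t o.law ^ M • eulEM o (diagRep χ) m =
          ∑ i ∈ Finset.range (htV V t), vv p i o.law ^ L • c i :=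
  eul_main o (t3Prop p o) V hV t L

end Vale.Agent.P241.EUL
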